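import Mathlib

namespace Vale.Agent.P120.Liouville

open MeasureTheory Set Filter Topology Module
open scoped ENNReal

variable {V : Type*} [NormedAddCommGroup V] [InnerProductSpace ℝ V] [FiniteDimensional ℝ V]
  [MeasurableSpace V] [BorelSpace V]
variable {F : Type*} [NormedAddCommGroup F] [NormedSpace ℝ F] [CompleteSpace F]

/-- Symmetric second difference. -/
def sdiff (h : V → F) (x z : V) : F := h x + h x - h (x + z) - h (x - z)

/-- The operator `h ↦ ½ ∫ (2 h x - h (x+z) - h (x-z)) / ‖z‖^(n+1) dz`, `n = dim V`. -/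
noncomputable def lop (h : V → F) (x : V) : F :=
  (1 / 2 : ℝ) • ∫ z, (‖z‖ ^ (finrank ℝ V + 1))⁻¹ • sdiff h x z

/-- The dominating kernel `min(‖z‖², 1) / ‖z‖^(n+1)`. -/
noncomputable def ker0 (z : V) : ℝ := (‖z‖ ^ (finrank ℝ V + 1))⁻¹ * min (‖z‖ ^ 2) 1

lemma ker0_nonneg (z : V) : 0 ≤ ker0 z := by unfold ker0; positivity

lemma measurable_weight : Measurable fun z : V => (‖z‖ ^ (finrank ℝ V + 1))⁻¹ :=
  ((continuous_norm.pow _).measurable).inv

lemma integrable_ker0 [Nontrivial V] : Integrable (ker0 : V → ℝ) := by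
  have hn : 1 ≤ finrank ℝ V := finrank_pos
  have hm : Measurable fun y : ℝ => (y ^ 2)⁻¹ * min (y ^ 2) 1 := by fun_prop
  have h2 : IntegrableOn (fun y : ℝ => (y ^ 2)⁻¹ * min (y ^ 2) 1) (Ioi 0) := by
    rw [← Ioc_union_Ioi_eq_Ioi zero_le_one]
    refine IntegrableOn.union ?_ ?_
    · refine (integrableOn_const (C := (1 : ℝ)) measure_Ioc_lt_top.ne).mono'
        hm.aestronglyMeasurable.restrict
        ((ae_restrict_mem measurableSet_Ioc).mono fun y hy => ?_)
      have : (0 : ℝ) < y ^ 2 := pow_pos hy.1 2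
      rw [Real.norm_eq_abs, abs_of_nonneg (by positivity), inv_mul_le_iff₀ this, mul_one]
      exact min_le_left _ _
    · refine (integrableOn_Ioi_rpow_of_lt (show (-2 : ℝ) < -1 by norm_num) one_pos).mono'
        hm.aestronglyMeasurable.restrict
        ((ae_restrict_mem measurableSet_Ioi).mono fun y hy => ?_)
      have hy0 : (0 : ℝ) < y := zero_lt_one.trans hy
      rw [Real.norm_eq_abs, abs_of_nonneg (by positivity),
        Real.rpow_neg hy0.le, show ((2 : ℝ)) = ((2 : ℕ) : ℝ) by norm_num, Real.rpow_natCast]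
      exact mul_le_of_le_one_right (by positivity) (min_le_right _ _)
  refine (integrable_fun_norm_addHaar volume
    (f := fun y : ℝ => (y ^ (finrank ℝ V + 1))⁻¹ * min (y ^ 2) 1)).2 (h2.congr_fun (fun y hy => ?_)
      measurableSet_Ioi)
  have hy0 : (y : ℝ) ≠ 0 := ne_of_gt hy
  simp only [smul_eq_mul]
  have hp : y ^ (finrank ℝ V + 1) = y ^ (finrank ℝ V - 1) * y ^ 2 := by
    rw [← pow_add]; congr 1; omega
  rw [hp]
  field_simp

lemma weight_mul_sq_le {z : V} (hz : ‖z‖ ≤ 1) :
    (‖z‖ ^ (finrank ℝ V + 1))⁻¹ * ‖z‖ ^ 2 = ker0 z := by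
  rw [ker0, min_eq_left (by nlinarith [norm_nonneg z])]

/-- Bound of the kernel times a second difference by `ker0`. -/
lemma norm_weight_sdiff_le {h : V → F} {x z : V} {C : ℝ}
    (hsmall : ‖z‖ ≤ 1 → ‖sdiff h x z‖ ≤ C * ‖z‖ ^ 2) (hbig : 1 < ‖z‖ → ‖sdiff h x z‖ ≤ C) :
    ‖(‖z‖ ^ (finrank ℝ V + 1))⁻¹ • sdiff h x z‖ ≤ C * ker0 z := by
  rw [norm_smul, Real.norm_eq_abs, abs_of_nonneg (by positivity), ker0]
  rcases le_or_gt ‖z‖ 1 with hz | hz
  · rw [min_eq_left (by nlinarith [norm_nonneg z]), ← mul_assoc C, mul_comm C, mul_assoc]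
    exact mul_le_mul_of_nonneg_left (hsmall hz) (by positivity)
  · rw [min_eq_right (by nlinarith), mul_one, mul_comm C]
    exact mul_le_mul_of_nonneg_left (hbig hz) (by positivity)

/-- Decay class, uniform in one constant. -/
structure Nice (K : ℕ) (B : ℝ) (h : V → F) : Prop where
  cont : Continuous h
  decay : ∀ x, ‖h x‖ * (1 + ‖x‖) ^ K ≤ B
  second : ∀ x z, ‖z‖ ≤ max 1 (‖x‖ / 2) → ‖sdiff h x z‖ * (1 + ‖x‖) ^ K ≤ B * ‖z‖ ^ 2

variable {h : V → F} {B : ℝ} {K : ℕ}

lemma Nice.nonneg (hh : Nice K B h) : 0 ≤ B :=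
  le_trans (by positivity) (hh.decay 0)

lemma Nice.norm_le (hh : Nice K B h) (x : V) : ‖h x‖ ≤ B :=
  le_trans (le_mul_of_one_le_right (norm_nonneg _) (one_le_pow₀ (by linarith [norm_nonneg x])))
    (hh.decay x)

lemma Nice.kernel_bound (hh : Nice K B h) (x z : V) :
    ‖(‖z‖ ^ (finrank ℝ V + 1))⁻¹ • sdiff h x z‖ ≤ 4 * B * ker0 z := by
  refine norm_weight_sdiff_le (fun hz => ?_) (fun _ => ?_)
  · have h1 := hh.second x z (hz.trans (le_max_left _ _))
    have h2 : ‖sdiff h x z‖ ≤ ‖sdiff h x z‖ * (1 + ‖x‖) ^ K :=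
      le_mul_of_one_le_right (norm_nonneg _) (one_le_pow₀ (by linarith [norm_nonneg x]))
    nlinarith [hh.nonneg, sq_nonneg ‖z‖]
  · have := hh.norm_le
    calc ‖sdiff h x z‖ ≤ ‖h x + h x - h (x + z)‖ + ‖h (x - z)‖ := norm_sub_le _ _
      _ ≤ ‖h x + h x‖ + ‖h (x + z)‖ + ‖h (x - z)‖ := by gcongr; exact norm_sub_le _ _
      _ ≤ ‖h x‖ + ‖h x‖ + ‖h (x + z)‖ + ‖h (x - z)‖ := by gcongr; exact norm_add_le _ _
      _ ≤ 4 * B := by linarith [this x, this (x + z), this (x - z)]

lemma Nice.measurable_kernel (hh : Nice K B h) (x : V) :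
    AEStronglyMeasurable (fun z => (‖z‖ ^ (finrank ℝ V + 1))⁻¹ • sdiff h x z) volume :=
  measurable_weight.aestronglyMeasurable.smul
    ((((hh.cont.comp continuous_const).add (hh.cont.comp continuous_const)).sub
      (hh.cont.comp (continuous_const.add continuous_id))).sub
      (hh.cont.comp (continuous_const.sub continuous_id))).aestronglyMeasurable

lemma Nice.integrable_kernel [Nontrivial V] (hh : Nice K B h) (x : V) :
    Integrable fun z => (‖z‖ ^ (finrank ℝ V + 1))⁻¹ • sdiff h x z :=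
  (integrable_ker0.const_mul (4 * B)).mono' (hh.measurable_kernel x)
    (Eventually.of_forall (hh.kernel_bound x))

lemma Nice.integrable [Nontrivial V] (hh : Nice K B h) (hK : finrank ℝ V < K) : Integrable h := by
  refine ((integrable_one_add_norm (μ := (volume : Measure V)) (r := (K : ℝ)) (by exact_mod_cast hK)).const_mul B).mono'
    hh.cont.aestronglyMeasurable (Eventually.of_forall fun x => ?_)
  rw [Real.rpow_neg (by positivity), Real.rpow_natCast, ← div_eq_mul_inv, le_div_iff₀ (by positivity)]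
  exact hh.decay x

/-- Lipschitz bound for the radial kernel away from the origin. -/
lemma inv_pow_sub_le {a b : ℝ} (ha : 0 < a) (hb : 0 < b) {r : ℝ} (hr : 0 < r) (hra : r ≤ a)
    (hrb : r ≤ b) (k : ℕ) : |(a ^ k)⁻¹ - (b ^ k)⁻¹| ≤ k * |a - b| / r ^ (k + 1) := by
  induction k with
  | zero => simp
  | succ k ih =>
    have e : (a ^ (k + 1))⁻¹ - (b ^ (k + 1))⁻¹ =
        ((a ^ k)⁻¹ - (b ^ k)⁻¹) * a⁻¹ + (b ^ k)⁻¹ * (a⁻¹ - b⁻¹) := by
      rw [pow_succ, pow_succ, mul_inv, mul_inv]; ring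
    rw [e]
    refine (abs_add_le _ _).trans ?_
    have h1 : |((a ^ k)⁻¹ - (b ^ k)⁻¹) * a⁻¹| ≤ k * |a - b| / r ^ (k + 1) * r⁻¹ := by
      rw [abs_mul, abs_of_pos (inv_pos.2 ha)]
      exact mul_le_mul ih (inv_anti₀ hr hra) (by positivity) (by positivity)
    have h2 : |(b ^ k)⁻¹ * (a⁻¹ - b⁻¹)| ≤ (r ^ k)⁻¹ * (|a - b| / (r * r)) := by
      rw [abs_mul, abs_of_pos (by positivity : 0 < (b ^ k)⁻¹)]
      refine mul_le_mul (inv_anti₀ (by positivity) (by gcongr)) ?_ (abs_nonneg _) (by positivity)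
      rw [inv_sub_inv ha.ne' hb.ne', abs_div, abs_of_pos (mul_pos ha hb), abs_sub_comm b a]
      gcongr
    calc _ ≤ k * |a - b| / r ^ (k + 1) * r⁻¹ + (r ^ k)⁻¹ * (|a - b| / (r * r)) := add_le_add h1 h2
      _ = _ := by push_cast; field_simp; ring

/-- `lop` of a mean-zero member of `Nice (n+4)` decays like `‖x‖^-(n+2)`, uniformly in `B`. -/
lemma lop_decay [Nontrivial V] : ∃ C : ℝ, 0 ≤ C ∧ ∀ (B : ℝ) (h : V → F),
    Nice (finrank ℝ V + 4) B h → (∫ y, h y) = 0 →
      ∀ x, ‖lop h x‖ * (1 + ‖x‖) ^ (finrank ℝ V + 2) ≤ C * B := by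
  classical
  obtain ⟨n, hn⟩ : ∃ n, n = finrank ℝ V := ⟨_, rfl⟩
  set I0 := ∫ z : V, ker0 z with hI0
  set I1 := ∫ y : V, (1 + ‖y‖) ^ (-(n + 3 : ℕ) : ℝ) with hI1
  have hint1 : Integrable (fun y : V => (1 + ‖y‖) ^ (-(n + 3 : ℕ) : ℝ)) :=
    integrable_one_add_norm (by rw [← hn]; push_cast; linarith)
  have hI0nn : 0 ≤ I0 := integral_nonneg ker0_nonneg
  have hI1nn : 0 ≤ I1 := integral_nonneg fun y => by positivity
  set C1 : ℝ := (4 * I0) * 4 ^ (n + 2) with hC1
  set C2 : ℝ := (I0 + 4 * I0) + (2 * I0 + (n + 2 : ℕ) * 2 ^ (n + 4) * I1) * 4 ^ (n + 2) with hC2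
  refine ⟨max C1 (C2 * 8), le_max_of_le_left (by rw [hC1]; positivity), fun B h hh hmean x => ?_⟩
  rw [← hn] at hh ⊢
  have hB := hh.nonneg
  rcases le_or_gt ‖x‖ 2 with hx | hx
  · have h1 : ‖lop h x‖ ≤ 4 * B * I0 := by
      simp only [lop, norm_smul]
      refine (mul_le_of_le_one_left (norm_nonneg _) (by norm_num)).trans ?_
      rw [hI0, ← integral_const_mul]
      exact norm_integral_le_of_norm_le (integrable_ker0.const_mul _)
        (Eventually.of_forall (hh.kernel_bound x))
    calc ‖lop h x‖ * (1 + ‖x‖) ^ (n + 2) ≤ 4 * B * I0 * 4 ^ (n + 2) := by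
          refine mul_le_mul h1 (pow_le_pow_left₀ (by positivity) (by linarith) _) (by positivity)
            (by positivity)
      _ = C1 * B := by rw [hC1]; ring
      _ ≤ _ := mul_le_mul_of_nonneg_right (le_max_left _ _) hB
  -- far points
  set r := ‖x‖ / 2 with hr
  have hr1 : 1 < r := by rw [hr]; linarith
  set w : V → ℝ := fun z => (‖z‖ ^ (n + 1))⁻¹ with hw
  have hint : Integrable fun z => w z • sdiff h x z := by
    simpa [hw, hn] using hh.integrable_kernel x
  set P := (1 + ‖x‖) with hP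
  have hPpos : 0 < P := by positivity
  have hP3 : P ≤ 4 * r := by rw [hP, hr]; linarith
  -- inner part
  have hin : ‖∫ z in {z | ‖z‖ ≤ r}, w z • sdiff h x z‖ ≤ B * (r * r * I0) / P ^ (n + 4) := by
    refine (norm_integral_le_of_norm_le (g := fun z => B / P ^ (n + 4) * (r * r * ker0 z))
      ((integrable_ker0.const_mul _).const_mul _).integrableOn
      ((ae_restrict_mem (measurableSet_le measurable_norm measurable_const)).mono
        fun z hz => ?_)).trans (le_trans (integral_mono_measure (Measure.restrict_le_self)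
          (Eventually.of_forall fun z => mul_nonneg (by positivity)
            (mul_nonneg (by positivity) (ker0_nonneg z)))
          ((integrable_ker0.const_mul _).const_mul _)) ?_)
    · have h2 := hh.second x z ((show ‖z‖ ≤ r from hz).trans (le_max_right _ _))
      rw [← le_div_iff₀ (by positivity)] at h2
      have h3 : ‖z‖ ^ 2 ≤ r * r * min (‖z‖ ^ 2) 1 := by
        rcases le_or_gt (‖z‖ ^ 2) 1 with h4 | h4
        · rw [min_eq_left h4]; exact le_mul_of_one_le_left (sq_nonneg _) (by nlinarith)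
        · rw [min_eq_right h4.le, mul_one]; nlinarith [norm_nonneg z, (show ‖z‖ ≤ r from hz)]
      have hw0 : 0 ≤ w z := by simp only [hw]; positivity
      rw [norm_smul, Real.norm_eq_abs, abs_of_nonneg hw0]
      calc w z * ‖sdiff h x z‖ ≤ w z * (B * (r * r * min (‖z‖ ^ 2) 1) / P ^ (n + 4)) :=
            mul_le_mul_of_nonneg_left (h2.trans (by gcongr)) hw0
        _ = _ := by simp only [ker0, hw, hn]; ring
    · rw [integral_const_mul, integral_const_mul, ← hI0]; exact le_of_eq (by ring)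
  -- outer part
  set S : Set V := {z | r < ‖z‖} with hS
  have hSm : MeasurableSet S := measurableSet_lt measurable_const measurable_norm
  have hwS : ∀ z ∈ S, w z ≤ ker0 z := by
    intro z hz
    have : 1 < ‖z‖ := hr1.trans hz
    simp only [ker0, ← hn, min_eq_right (by nlinarith : (1 : ℝ) ≤ ‖z‖ ^ 2), mul_one, hw, le_refl]
  have hwS' : ∀ z, S.indicator w z ≤ (r ^ (n + 1))⁻¹ := by
    intro z
    by_cases hz : z ∈ S
    · rw [indicator_of_mem hz]
      exact inv_anti₀ (by positivity) (pow_le_pow_left₀ (by linarith) (le_of_lt hz) _)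
    · rw [indicator_of_notMem hz]; positivity
  have hint2 : Integrable h := hh.integrable (by omega)
  have hwm : Measurable w := by simpa [hw, hn] using (measurable_weight (V := V))
  have hker : ∀ y, |S.indicator w (x - y) - (‖x‖ ^ (n + 1))⁻¹| ≤
      (n + 2 : ℕ) * ‖y‖ / r ^ (n + 2) := by
    intro y
    have hnn : 0 ≤ (n + 2 : ℕ) * ‖y‖ / r ^ (n + 2) := by positivity
    rcases le_or_gt r ‖y‖ with hy | hy
    · refine (abs_sub _ _).trans ?_
      rw [abs_of_nonneg (indicator_nonneg (fun z _ => by simp only [hw]; positivity) _),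
        abs_of_nonneg (by positivity)]
      calc _ ≤ (r ^ (n + 1))⁻¹ + (r ^ (n + 1))⁻¹ := add_le_add (hwS' _)
            (inv_anti₀ (by positivity) (pow_le_pow_left₀ (by linarith) (by linarith) _))
        _ = 2 * r / r ^ (n + 2) := by field_simp; ring
        _ ≤ _ := by
            gcongr
            · push_cast; linarith [Nat.cast_nonneg (α := ℝ) n]
    · have h5 : r < ‖x - y‖ := by linarith [norm_sub_norm_le x y]
      rw [indicator_of_mem (show x - y ∈ S from h5)]
      refine (inv_pow_sub_le (by linarith) (by linarith) (show (0:ℝ) < r by linarith) h5.le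
        (by linarith) (n + 1)).trans ?_
      gcongr
      · simp
      · simpa using abs_norm_sub_norm_le (x - y) x
  have hout : ∀ σ : ℝ, |σ| = 1 → ‖∫ z in S, w z • h (x + σ • z)‖ ≤
      (n + 2 : ℕ) / r ^ (n + 2) * (B * I1) := by
    intro σ hσ
    have e1 : ∫ z in S, w z • h (x + σ • z) = ∫ y, S.indicator w (x - y) • h y := by
      rw [← integral_indicator hSm]
      have h6 : (fun z => S.indicator (fun z => w z • h (x + σ • z)) z) =
          fun z => S.indicator w (σ • z) • h (x + σ • z) := by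
        funext z
        have hnz : ‖σ • z‖ = ‖z‖ := by rw [norm_smul, Real.norm_eq_abs, hσ, one_mul]
        by_cases hz : z ∈ S
        · rw [indicator_of_mem hz, indicator_of_mem (show σ • z ∈ S by simpa [hS, hnz] using hz)]
          simp [hw, hnz]
        · rw [indicator_of_notMem hz, indicator_of_notMem (show σ • z ∉ S by simpa [hS, hnz] using hz)]
          simp
      rw [h6, Measure.integral_comp_smul volume (fun u => S.indicator w u • h (x + u)) σ]
      rw [abs_inv, abs_pow, hσ, one_pow, inv_one, one_smul,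
        ← integral_add_left_eq_self (fun y => S.indicator w (x - y) • h y) x]
      refine integral_congr_ae (Eventually.of_forall fun u => ?_)
      by_cases hu : u ∈ S
      · simp only [sub_add_cancel_left]
        rw [indicator_of_mem hu, indicator_of_mem (show -u ∈ S by simpa [hS] using hu)]
        simp [hw]
      · simp only [sub_add_cancel_left]
        rw [indicator_of_notMem hu, indicator_of_notMem (show -u ∉ S by simpa [hS] using hu)]
    have e2 : ∫ y, S.indicator w (x - y) • h y =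
        ∫ y, (S.indicator w (x - y) - (‖x‖ ^ (n + 1))⁻¹) • h y := by
      have i1 : Integrable fun y => S.indicator w (x - y) • h y :=
        hint2.bdd_smul ((r ^ (n + 1))⁻¹)
          ((hwm.indicator hSm).comp (measurable_const.sub measurable_id)).aestronglyMeasurable
          (Eventually.of_forall fun y => by
            rw [Real.norm_eq_abs, abs_of_nonneg
              (indicator_nonneg (fun z _ => by simp only [hw]; positivity) _)]
            exact hwS' _)
      simp only [sub_smul]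
      rw [integral_sub i1 (hint2.smul ((‖x‖ ^ (n + 1))⁻¹) : Integrable fun y => (‖x‖ ^ (n + 1))⁻¹ • h y),
        integral_smul, hmean, smul_zero, sub_zero]
    rw [e1, e2]
    refine (norm_integral_le_of_norm_le ((hint1.const_mul B).const_mul _)
      (Eventually.of_forall fun y => ?_)).trans_eq (by rw [integral_const_mul, integral_const_mul])
    rw [norm_smul, Real.norm_eq_abs]
    have hd := hh.decay y
    have h7 : ‖y‖ * ‖h y‖ ≤ B * (1 + ‖y‖) ^ (-(n + 3 : ℕ) : ℝ) := by
      rw [Real.rpow_neg (by positivity), Real.rpow_natCast, ← div_eq_mul_inv,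
        le_div_iff₀ (by positivity)]
      calc ‖y‖ * ‖h y‖ * (1 + ‖y‖) ^ (n + 3) ≤ (1 + ‖y‖) * ‖h y‖ * (1 + ‖y‖) ^ (n + 3) := by
            gcongr; linarith
        _ = ‖h y‖ * (1 + ‖y‖) ^ (n + 4) := by ring
        _ ≤ B := hd
    calc _ ≤ (n + 2 : ℕ) * ‖y‖ / r ^ (n + 2) * ‖h y‖ :=
          mul_le_mul_of_nonneg_right (hker y) (norm_nonneg _)
      _ = (n + 2 : ℕ) / r ^ (n + 2) * (‖y‖ * ‖h y‖) := by ring
      _ ≤ _ := mul_le_mul_of_nonneg_left h7 (by positivity)
  have hwint : IntegrableOn w S := by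
    refine integrable_ker0.integrableOn.mono' hwm.aestronglyMeasurable.restrict
      ((ae_restrict_mem hSm).mono fun z hz => ?_)
    rw [Real.norm_eq_abs, abs_of_nonneg (by simp only [hw]; positivity)]
    exact hwS z hz
  have hbdd : ∀ σ : ℝ, IntegrableOn (fun z => w z • h (x + σ • z)) S := fun σ =>
    Integrable.smul_bdd hwint B
      (hh.cont.comp (continuous_const.add (continuous_id.const_smul σ))).aestronglyMeasurable
      (Eventually.of_forall fun z => hh.norm_le _)
  have hsplit : (∫ z, w z • sdiff h x z) = (∫ z in {z | ‖z‖ ≤ r}, w z • sdiff h x z) +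
      ((∫ z in S, w z) • (h x + h x) - (∫ z in S, w z • h (x + (1 : ℝ) • z)) -
        ∫ z in S, w z • h (x + (-1 : ℝ) • z)) := by
    have hc : ({z : V | ‖z‖ ≤ r})ᶜ = S := by ext z; simp [hS]
    rw [← integral_add_compl (measurableSet_le measurable_norm measurable_const) hint, hc]
    congr 1
    rw [← integral_smul_const]
    have i2 : IntegrableOn (fun z => w z • (h x + h x) - w z • h (x + (1 : ℝ) • z)) S :=
      (hwint.smul_const _).sub (hbdd 1)
    rw [← integral_sub (hwint.smul_const _) (hbdd 1), ← integral_sub i2 (hbdd (-1))]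
    refine setIntegral_congr_fun hSm fun z _ => ?_
    simp [sdiff, smul_sub, sub_eq_add_neg]
  have hwI : |∫ z in S, w z| ≤ I0 := by
    rw [abs_of_nonneg (setIntegral_nonneg hSm fun z _ => by simp only [hw]; positivity)]
    exact (setIntegral_mono_on hwint integrable_ker0.integrableOn hSm hwS).trans
      (setIntegral_le_integral integrable_ker0 (Eventually.of_forall ker0_nonneg))
  have hx0 : ‖h x + h x‖ ≤ 2 * B / P ^ (n + 4) := by
    refine (norm_add_le _ _).trans ?_
    rw [le_div_iff₀ (by positivity)]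
    linarith [hh.decay x]
  have hmain : ‖lop h x‖ ≤ B * (r * r * I0) / P ^ (n + 4) +
      (I0 * (2 * B / P ^ (n + 4)) + 2 * ((n + 2 : ℕ) / r ^ (n + 2) * (B * I1))) := by
    simp only [lop, ← hn]
    rw [norm_smul]
    refine (mul_le_of_le_one_left (norm_nonneg _) (by norm_num)).trans ?_
    rw [show (fun z => (‖z‖ ^ (n + 1))⁻¹ • sdiff h x z) = fun z => w z • sdiff h x z from rfl, hsplit]
    refine (norm_add_le _ _).trans (add_le_add hin ?_)
    refine (norm_sub_le _ _).trans ((add_le_add (norm_sub_le _ _) le_rfl).trans ?_)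
    have := hout 1 (abs_one)
    have := hout (-1) (by simp)
    have h8 : ‖(∫ z in S, w z) • (h x + h x)‖ ≤ I0 * (2 * B / P ^ (n + 4)) := by
      rw [norm_smul, Real.norm_eq_abs]; exact mul_le_mul hwI hx0 (norm_nonneg _) hI0nn
    linarith
  refine (mul_le_mul_of_nonneg_right hmain (by positivity)).trans ?_
  have hr2 : r * r ≤ P ^ 2 := by rw [hP, hr]; nlinarith [norm_nonneg x]
  have q1 : B * (r * r * I0) / P ^ (n + 4) * P ^ (n + 2) ≤ B * I0 := by
    rw [pow_add P n 4, pow_add P n 2, div_mul_eq_mul_div, div_le_iff₀ (by positivity)]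
    have : r * r * P ^ 2 ≤ P ^ 4 := by nlinarith [sq_nonneg P]
    calc B * (r * r * I0) * (P ^ n * P ^ 2) = B * I0 * P ^ n * (r * r * P ^ 2) := by ring
      _ ≤ B * I0 * P ^ n * P ^ 4 := by gcongr
      _ = _ := by ring
  have q2 : I0 * (2 * B / P ^ (n + 4)) * P ^ (n + 2) ≤ 2 * B * I0 := by
    have hP1 : (1 : ℝ) ≤ P ^ 2 := one_le_pow₀ (by rw [hP]; linarith [norm_nonneg x])
    rw [show I0 * (2 * B / P ^ (n + 4)) * P ^ (n + 2) = 2 * B * I0 / P ^ 2 by
      rw [show n + 4 = (n + 2) + 2 by rfl, pow_add P (n + 2) 2]; field_simp]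
    exact div_le_self (by positivity) hP1
  have q3 : 2 * ((n + 2 : ℕ) / r ^ (n + 2) * (B * I1)) * P ^ (n + 2) ≤
      2 * ((n + 2 : ℕ) * 4 ^ (n + 2)) * (B * I1) := by
    have : P ^ (n + 2) ≤ 4 ^ (n + 2) * r ^ (n + 2) := by
      rw [← mul_pow]; exact pow_le_pow_left₀ hPpos.le hP3 _
    calc _ = 2 * (n + 2 : ℕ) * (B * I1) * (P ^ (n + 2) / r ^ (n + 2)) := by ring
      _ ≤ 2 * (n + 2 : ℕ) * (B * I1) * 4 ^ (n + 2) := by
          gcongr; rw [div_le_iff₀ (by positivity)]; exact this
      _ = _ := by ring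
  refine le_trans ?_ (mul_le_mul_of_nonneg_right (le_max_right _ _) hB)
  rw [add_mul, add_mul]
  have hA : 0 ≤ I0 * B := mul_nonneg hI0nn hB
  have hA1 : 0 ≤ (4 : ℝ) ^ (n + 2) * (I0 * B) := mul_nonneg (by positivity) hA
  have hA2 : 0 ≤ ((n + 2 : ℕ) : ℝ) * 4 ^ (n + 2) * (B * I1) := by positivity
  have h2n : (1 : ℝ) ≤ 2 ^ (n + 4) := one_le_pow₀ (by norm_num)
  have hA3 := mul_le_mul_of_nonneg_left h2n hA2
  rw [hC2]
  nlinarith

end Vale.Agent.P120.Liouville
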