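import Mathlib
import Vale.Agent.P120.Liouville.Kernel

/-!
Schwartz functions lie in every decay class; linearity of `lop`; the weight `(1 + ‖x‖)^-(n+2)`.
-/

namespace Vale.Agent.P120.Liouville

open MeasureTheory Set Filter Topology Module
open scoped ENNReal SchwartzMap

variable {V : Type*} [NormedAddCommGroup V] [InnerProductSpace ℝ V] [FiniteDimensional ℝ V]
  [MeasurableSpace V] [BorelSpace V]
variable {F : Type*} [NormedAddCommGroup F] [NormedSpace ℝ F] [CompleteSpace F]

/-- The weight `(1 + ‖x‖)^-(n+2)`. -/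
noncomputable def wt (x : V) : ℝ := ((1 + ‖x‖) ^ (finrank ℝ V + 2))⁻¹

omit [InnerProductSpace ℝ V] [FiniteDimensional ℝ V] [MeasurableSpace V] [BorelSpace V] in
lemma one_add_pos (x : V) : 0 < 1 + ‖x‖ := by positivity

lemma wt_nonneg (x : V) : 0 ≤ wt x := by unfold wt; positivity

lemma continuous_wt : Continuous (wt : V → ℝ) :=
  ((continuous_const.add continuous_norm).pow _).inv₀ fun x => pow_ne_zero _ (one_add_pos x).ne'

lemma integrable_wt : Integrable (wt : V → ℝ) := by
  refine (integrable_one_add_norm (μ := (volume : Measure V)) (r := ((finrank ℝ V + 2 : ℕ) : ℝ))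
    (by push_cast; linarith)).congr (Eventually.of_forall fun x => ?_)
  simp only [wt]
  rw [Real.rpow_neg (by positivity), Real.rpow_natCast]

omit [MeasurableSpace V] [BorelSpace V] [FiniteDimensional ℝ V] [CompleteSpace F] in
/-- A second difference is controlled by the second derivative on the segment. -/
lemma norm_sdiff_le {f : V → F} (hf : ContDiff ℝ 2 f) (x z : V) {D : ℝ}
    (hD : ∀ p, ‖p - x‖ ≤ ‖z‖ → ‖iteratedFDeriv ℝ 2 f p‖ ≤ D) :
    ‖sdiff f x z‖ ≤ 2 * D * ‖z‖ ^ 2 := by
  have hd : Differentiable ℝ f := hf.differentiable (by norm_num)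
  have hd2 : Differentiable ℝ (fderiv ℝ f) :=
    (hf.fderiv_right (m := 1) (by norm_num)).differentiable (by norm_num)
  have hD2 : ∀ p, ‖p - x‖ ≤ ‖z‖ → ‖fderiv ℝ (fderiv ℝ f) p‖ ≤ D := fun p hp => by
    have h := hD p hp
    rwa [← norm_iteratedFDeriv_fderiv, norm_iteratedFDeriv_one] at h
  have hD0 : 0 ≤ D := (norm_nonneg _).trans (hD x (by simp))
  set g : ℝ → F := fun t => f (x + t • z) + f (x - t • z)
  set g' : ℝ → F := fun t => fderiv ℝ f (x + t • z) z + fderiv ℝ f (x - t • z) (-z)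
  have hg : ∀ t, HasDerivAt g (g' t) t := by
    intro t
    have h1 : HasDerivAt (fun t : ℝ => x + t • z) z t := by
      simpa using ((hasDerivAt_id' t).smul_const z).const_add x
    have h2 : HasDerivAt (fun t : ℝ => x - t • z) (-z) t := by
      simpa using ((hasDerivAt_id' t).smul_const z).const_sub x
    exact ((hd _).hasFDerivAt.comp_hasDerivAt t h1).add ((hd _).hasFDerivAt.comp_hasDerivAt t h2)
  have hbound : ∀ t ∈ Ico (0 : ℝ) 1, ‖g' t‖ ≤ 2 * D * ‖z‖ ^ 2 := by
    intro t ht
    have hm := Convex.norm_image_sub_le_of_norm_fderiv_le (𝕜 := ℝ) (f := fderiv ℝ f)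
      (s := Metric.closedBall x ‖z‖) (C := D) (fun p _ => hd2 p)
      (fun p hp => hD2 p (by simpa [Metric.mem_closedBall, dist_eq_norm] using hp))
      (convex_closedBall x ‖z‖) (x := x - t • z) (y := x + t • z)
      (by simpa [Metric.mem_closedBall, norm_smul, abs_of_nonneg ht.1] using
        mul_le_of_le_one_left (norm_nonneg z) ht.2.le)
      (by simpa [Metric.mem_closedBall, norm_smul, abs_of_nonneg ht.1] using
        mul_le_of_le_one_left (norm_nonneg z) ht.2.le)
    have e : g' t = (fderiv ℝ f (x + t • z) - fderiv ℝ f (x - t • z)) z := by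
      simp [g', sub_eq_add_neg]
    rw [e]
    refine (ContinuousLinearMap.le_opNorm _ _).trans ?_
    have h3 : ‖(x + t • z) - (x - t • z)‖ ≤ 2 * ‖z‖ := by
      have h5 : (x + t • z) - (x - t • z) = (2 * t) • z := by module
      rw [h5, norm_smul, Real.norm_of_nonneg (by linarith [ht.1])]
      exact mul_le_mul_of_nonneg_right (by linarith [ht.2]) (norm_nonneg _)
    calc _ ≤ D * (2 * ‖z‖) * ‖z‖ :=
          mul_le_mul_of_nonneg_right (hm.trans (mul_le_mul_of_nonneg_left h3 hD0)) (norm_nonneg _)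
      _ = _ := by ring
  have h := norm_image_sub_le_of_norm_deriv_le_segment' (f := g) (f' := g')
    (C := 2 * D * ‖z‖ ^ 2) (a := (0 : ℝ)) (b := 1) (fun t _ => (hg t).hasDerivWithinAt) hbound
    1 (right_mem_Icc.2 zero_le_one)
  have e : sdiff f x z = -(g 1 - g 0) := by simp [sdiff, g]; abel
  rw [e, norm_neg]
  simpa using h

omit [MeasurableSpace V] [BorelSpace V] [FiniteDimensional ℝ V] [CompleteSpace F] in
/-- Pointwise bounds on `h` and on its second derivative give membership of a decay class. -/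
lemma Nice.of_bounds {K : ℕ} {B : ℝ} {h : V → F} (hh : ContDiff ℝ 2 h)
    (h0 : ∀ x, ‖h x‖ * (1 + ‖x‖) ^ K ≤ B)
    (h2 : ∀ x, ‖iteratedFDeriv ℝ 2 h x‖ * (1 + ‖x‖) ^ K ≤ B) :
    Nice K (2 ^ (K + 1) * B) h := by
  have hB : 0 ≤ B := le_trans (by positivity) (h0 0)
  refine ⟨hh.continuous, fun x => (h0 x).trans (le_mul_of_one_le_left hB (one_le_pow₀ (by norm_num))),
    fun x z hz => ?_⟩
  have hP : 0 < (1 + ‖x‖) ^ K := by positivity
  rw [← le_div_iff₀ hP]
  refine (norm_sdiff_le hh x z (D := 2 ^ K * B / (1 + ‖x‖) ^ K) fun p hp => ?_).trans_eq ?_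
  · rw [le_div_iff₀ hP]
    have h1 : 1 + ‖x‖ ≤ 2 * (1 + ‖p‖) := by
      have := norm_sub_norm_le x p
      rw [norm_sub_rev] at this
      rcases le_max_iff.1 hz with h | h <;> linarith [norm_nonneg p]
    calc ‖iteratedFDeriv ℝ 2 h p‖ * (1 + ‖x‖) ^ K
        ≤ ‖iteratedFDeriv ℝ 2 h p‖ * (2 * (1 + ‖p‖)) ^ K := by gcongr
      _ = 2 ^ K * (‖iteratedFDeriv ℝ 2 h p‖ * (1 + ‖p‖) ^ K) := by rw [mul_pow]; ring
      _ ≤ 2 ^ K * B := by gcongr; exact h2 p
  · rw [pow_succ (2 : ℝ)]; ring

omit [MeasurableSpace V] [BorelSpace V] [FiniteDimensional ℝ V] [CompleteSpace F] in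
lemma exists_decay_bound (f : 𝓢(V, F)) (k i : ℕ) :
    ∃ B, 0 ≤ B ∧ ∀ x, ‖iteratedFDeriv ℝ i f x‖ * (1 + ‖x‖) ^ k ≤ B := by
  refine ⟨2 ^ k * (Finset.Iic (k, i)).sup (fun m => SchwartzMap.seminorm ℝ m.1 m.2) f,
    mul_nonneg (by positivity) (apply_nonneg _ _), fun x => ?_⟩
  rw [mul_comm]
  exact SchwartzMap.one_add_le_sup_seminorm_apply (m := (k, i)) le_rfl le_rfl f x

omit [MeasurableSpace V] [BorelSpace V] [FiniteDimensional ℝ V] [CompleteSpace F] in
lemma exists_nice (f : 𝓢(V, F)) (K : ℕ) : ∃ B, Nice K B (f : V → F) := by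
  obtain ⟨B0, h00, hB0⟩ := exists_decay_bound f K 0
  obtain ⟨B2, h20, hB2⟩ := exists_decay_bound f K 2
  refine ⟨_, Nice.of_bounds (B := max B0 B2) (f.smooth 2) (fun x => ?_)
    (fun x => (hB2 x).trans (le_max_right _ _))⟩
  have := hB0 x
  rw [norm_iteratedFDeriv_zero] at this
  exact this.trans (le_max_left _ _)

variable [Nontrivial V] {K : ℕ} {B B' : ℝ} {f g : V → F}

lemma lop_sub (hf : Nice K B f) (hg : Nice K B' g) (x : V) :
    lop (fun y => f y - g y) x = lop f x - lop g x := by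
  rw [lop, lop, lop, ← smul_sub, ← integral_sub (hf.integrable_kernel x) (hg.integrable_kernel x)]
  congr 1
  refine integral_congr_ae (Eventually.of_forall fun z => ?_)
  simp only [sdiff, ← smul_sub]
  congr 1
  abel

lemma continuous_lop (hf : Nice K B f) : Continuous (lop f) := by
  refine Continuous.const_smul ?_ _
  refine continuous_of_dominated (bound := fun z => 4 * B * ker0 z)
    (fun x => hf.measurable_kernel x) (fun x => Eventually.of_forall (hf.kernel_bound x))
    (integrable_ker0.const_mul _) (Eventually.of_forall fun z => ?_)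
  have hc := hf.cont
  unfold sdiff
  fun_prop

omit [FiniteDimensional ℝ V] [Nontrivial V] [CompleteSpace F] in
/-- A member of `Nice` with mean zero has `lop` dominated by the weight. -/
lemma norm_le_wt {a C : ℝ} {x : V} (h : a * (1 + ‖x‖) ^ (finrank ℝ V + 2) ≤ C) : a ≤ C * wt x := by
  rw [wt, ← div_eq_mul_inv, le_div_iff₀ (by positivity)]
  exact h

end Vale.Agent.P120.Liouville
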