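import Mathlib
import Vale.Agent.P120.Statements
import Vale.Agent.P120.Liouville.Decay

/-!
Integrability of `A` against the weight, and the equation against all mean-zero Schwartz functions.
-/

namespace Vale.Agent.P120.Liouville

open MeasureTheory Set Filter Topology Module
open scoped ENNReal SchwartzMap RealInnerProductSpace

variable {n : ℕ}

lemma integrable_abs_mul_wt {A : Spc n → ℝ} {C : ℝ} (hA : AEStronglyMeasurable A volume)
    (hg : ∀ R : ℝ, 1 ≤ R → IntegrableOn (fun x => A x ^ 2) (Metric.ball 0 R) ∧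
      ∫ x in Metric.ball 0 R, A x ^ 2 ≤ C * R ^ (n + 3)) :
    Integrable fun x => |A x| * wt x := by
  have hn : finrank ℝ (Spc n) = n := finrank_euclideanSpace_fin
  have hm : AEStronglyMeasurable (fun x => |A x| * wt x) volume :=
    hA.norm.mul continuous_wt.aestronglyMeasurable
  refine ⟨hm, ?_⟩
  have hC : 0 ≤ C := by
    have h := hg 1 le_rfl
    have : (0 : ℝ) ≤ ∫ x in Metric.ball (0 : Spc n) 1, A x ^ 2 := integral_nonneg fun x => sq_nonneg _
    simpa using this.trans h.2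
  set V1 : ℝ := (volume : Measure (Spc n)).real (Metric.ball 0 1)
  set T : ℕ → Spc n → ℝ≥0∞ := fun k => (Metric.ball (0 : Spc n) ((4 : ℝ) ^ k)).indicator
    fun x => ENNReal.ofReal (4 ^ (n + 2) / (4 ^ k) ^ (n + 2) / 2 * ((8 : ℝ)⁻¹ ^ k * A x ^ 2 + 8 ^ k))
  have hpt : ∀ x, ‖|A x| * wt x‖ₑ ≤ ∑' k, T k x := by
    intro x
    rw [← ofReal_norm, Real.norm_of_nonneg (mul_nonneg (abs_nonneg _) (wt_nonneg _))]
    have hex : ∃ k : ℕ, ‖x‖ < (4 : ℝ) ^ k := pow_unbounded_of_one_lt _ (by norm_num)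
    set k := Nat.find hex
    refine le_trans ?_ (ENNReal.le_tsum k)
    have hk : ‖x‖ < (4 : ℝ) ^ k := Nat.find_spec hex
    simp only [T]
    rw [indicator_of_mem (mem_ball_zero_iff.2 hk)]
    refine ENNReal.ofReal_le_ofReal ?_
    have hw : wt x ≤ 4 ^ (n + 2) / (4 ^ k) ^ (n + 2) := by
      rw [wt, hn]
      have h1 : (4 : ℝ) ^ k ≤ 4 * (1 + ‖x‖) := by
        rcases Nat.eq_zero_or_pos k with h | h
        · rw [h, pow_zero]; linarith [norm_nonneg x]
        · have h2 := Nat.find_min hex (Nat.sub_lt h Nat.one_pos)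
          rw [not_lt] at h2
          have h3 : (4 : ℝ) ^ k = 4 * 4 ^ (k - 1) := by rw [← pow_succ']; congr 1; omega
          linarith
      rw [le_div_iff₀ (by positivity), inv_mul_le_iff₀ (by positivity)]
      calc ((4 : ℝ) ^ k) ^ (n + 2) ≤ (4 * (1 + ‖x‖)) ^ (n + 2) := by gcongr
        _ = _ := by rw [mul_pow]; ring
    have hq : |A x| ≤ ((8 : ℝ)⁻¹ ^ k * A x ^ 2 + 8 ^ k) / 2 := by
      have hp : (0 : ℝ) < 8 ^ k := by positivity
      rw [inv_pow, le_div_iff₀ two_pos, ← sub_nonneg]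
      have : ((8 : ℝ) ^ k)⁻¹ * A x ^ 2 + 8 ^ k - |A x| * 2 =
          ((8 : ℝ) ^ k)⁻¹ * (|A x| - 8 ^ k) ^ 2 := by
        rw [← sq_abs (A x)]; field_simp; ring
      rw [this]; positivity
    calc |A x| * wt x ≤ ((8 : ℝ)⁻¹ ^ k * A x ^ 2 + 8 ^ k) / 2 * (4 ^ (n + 2) / (4 ^ k) ^ (n + 2)) :=
          mul_le_mul hq hw (wt_nonneg _) (by positivity)
      _ = _ := by ring
  have hTm : ∀ k, AEMeasurable (T k) volume := fun k =>
    (((hA.aemeasurable.pow_const 2).const_mul ((8 : ℝ)⁻¹ ^ k)).add_const (8 ^ k) |>.const_mul _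
      |>.ennreal_ofReal).indicator measurableSet_ball
  unfold HasFiniteIntegral
  refine (lintegral_mono hpt).trans_lt ?_
  rw [lintegral_tsum hTm]
  have hk : ∀ k : ℕ, ∫⁻ x, T k x ≤ ENNReal.ofReal (4 ^ (n + 2) / 2 * (C + V1) * (1 / 2) ^ k) := by
    intro k
    have h4 : (1 : ℝ) ≤ 4 ^ k := one_le_pow₀ (by norm_num)
    obtain ⟨hi, hb⟩ := hg _ h4
    have hint : IntegrableOn (fun x => 4 ^ (n + 2) / (4 ^ k) ^ (n + 2) / 2 *
        ((8 : ℝ)⁻¹ ^ k * A x ^ 2 + 8 ^ k)) (Metric.ball (0 : Spc n) ((4 : ℝ) ^ k)) :=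
      ((hi.const_mul _).add (integrableOn_const measure_ball_lt_top.ne)).const_mul _
    simp only [T]
    rw [lintegral_indicator measurableSet_ball,
      ← ofReal_integral_eq_lintegral_ofReal hint (Eventually.of_forall fun x => by positivity),
      integral_const_mul, integral_add (hi.const_mul _) (integrableOn_const measure_ball_lt_top.ne),
      integral_const_mul, setIntegral_const, smul_eq_mul]
    refine ENNReal.ofReal_le_ofReal ?_
    have hvol : (volume : Measure (Spc n)).real (Metric.ball (0 : Spc n) ((4 : ℝ) ^ k))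
        = (4 ^ k) ^ n * V1 := by
      rw [measureReal_def, Measure.addHaar_ball_of_pos volume 0 (by positivity), hn, ENNReal.toReal_mul,
        ENNReal.toReal_ofReal (by positivity)]
      rfl
    rw [hvol]
    calc 4 ^ (n + 2) / (4 ^ k) ^ (n + 2) / 2 *
          ((8 : ℝ)⁻¹ ^ k * (∫ x in Metric.ball (0 : Spc n) ((4 : ℝ) ^ k), A x ^ 2)
            + (4 ^ k) ^ n * V1 * 8 ^ k)
        ≤ 4 ^ (n + 2) / (4 ^ k) ^ (n + 2) / 2 *
          ((8 : ℝ)⁻¹ ^ k * (C * (4 ^ k) ^ (n + 3)) + (4 ^ k) ^ n * V1 * 8 ^ k) := by gcongr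
      _ = _ := by
          rw [pow_add ((4 : ℝ) ^ k) n 3, pow_add ((4 : ℝ) ^ k) n 2]
          simp only [← pow_mul, one_div, inv_pow]
          rw [show k * 3 = k + (k + k) by ring, show k * 2 = k + k by ring,
            show (8 : ℝ) ^ k = 2 ^ k * 4 ^ k by rw [← mul_pow]; norm_num]
          simp only [pow_add, show (4 : ℝ) ^ k = 2 ^ k * 2 ^ k by rw [← mul_pow]; norm_num]
          field_simp
  refine (ENNReal.tsum_le_tsum hk).trans_lt ?_
  have hV : 0 ≤ V1 := measureReal_nonneg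
  rw [← ENNReal.ofReal_tsum_of_nonneg (fun k => by positivity)
    (summable_geometric_two.mul_left _)]
  exact ENNReal.ofReal_lt_top

lemma integrable_smul_of_le_wt {F : Type*} [NormedAddCommGroup F] [NormedSpace ℝ F]
    {A : Spc n → ℝ} (hA : AEStronglyMeasurable A volume)
    (hi : Integrable fun x => |A x| * wt x) {g : Spc n → F} (hg : AEStronglyMeasurable g volume)
    {c : ℝ} (hc : ∀ x, ‖g x‖ ≤ c * wt x) : Integrable fun x => A x • g x := by
  refine (hi.const_mul c).mono' (hA.smul hg) (Eventually.of_forall fun x => ?_)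
  rw [norm_smul, Real.norm_eq_abs]
  calc |A x| * ‖g x‖ ≤ |A x| * (c * wt x) := mul_le_mul_of_nonneg_left (hc x) (abs_nonneg _)
    _ = _ := by ring

lemma fracLap_comp (L : ℂ →L[ℝ] ℝ) {K : ℕ} {B : ℝ} {h : Spc n → ℂ} [Nontrivial (Spc n)]
    (hh : Nice K B h) (x : Spc n) : fracLap (fun y => L (h y)) x = L (lop h x) := by
  simp only [fracLap, lop, finrank_euclideanSpace_fin, map_smul, smul_eq_mul]
  have hi := hh.integrable_kernel x
  rw [finrank_euclideanSpace_fin] at hi
  rw [← L.integral_comp_comm hi]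
  congr 1
  refine integral_congr_ae (Eventually.of_forall fun z => ?_)
  simp only [sdiff, map_smul, map_sub, map_add, smul_eq_mul]
  ring

lemma smooth_top_le : (2 : WithTop ℕ∞) ≤ ((⊤ : ℕ∞) : WithTop ℕ∞) := by
  exact WithTop.coe_le_coe.mpr (le_top : (2 : ℕ∞) ≤ ⊤)

/-- Cutting off a Schwartz function at scale `m` leaves an error of size `1 / m` in `Nice`. -/
lemma exists_cutoff_nice (f : 𝓢(Spc n, ℂ)) (K : ℕ) (χ : ContDiffBump (0 : Spc n)) (hχ : χ.rIn = 1) :
    ∃ E : ℝ, ∀ m : ℕ, Nice K (E / ((m : ℝ) + 1))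
      (fun x => (1 - χ ((((m : ℝ) + 1))⁻¹ • x)) • f x) := by
  -- bounds on the cut-off
  have hχd : ContDiff ℝ ((⊤ : ℕ∞) : WithTop ℕ∞) (χ : Spc n → ℝ) := χ.contDiff
  choose Dχ hDχ0 hDχ using fun i : ℕ =>
    exists_decay_bound (χ.hasCompactSupport.toSchwartzMap hχd) 0 i
  simp only [pow_zero, mul_one] at hDχ
  have hDχ' : ∀ i x, ‖iteratedFDeriv ℝ i (χ : Spc n → ℝ) x‖ ≤ Dχ i := fun i x => hDχ i x
  choose Df hDf0 hDf using fun i : ℕ => exists_decay_bound f (K + 1) i
  -- the error of the cut-off at scale `m`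
  set u : ℕ → Spc n → ℂ := fun m x => (1 - χ ((((m : ℝ) + 1))⁻¹ • x)) • f x with hu
  set E := 2 ^ (K + 1) * (Df 0 + ((1 + Dχ 0) * Df 2 + 2 * Dχ 1 * Df 1 + Dχ 2 * Df 0)) with hE
  have hu_nice : ∀ m : ℕ, Nice K (E / ((m : ℝ) + 1)) (u m) := by
    intro m
    set M : ℝ := (m : ℝ) + 1 with hM
    have hM1 : 1 ≤ M := by rw [hM]; linarith [(Nat.cast_nonneg m : (0 : ℝ) ≤ m)]
    set L : Spc n →L[ℝ] Spc n := M⁻¹ • ContinuousLinearMap.id ℝ (Spc n)
    have hsm : ContDiff ℝ ((⊤ : ℕ∞) : WithTop ℕ∞) fun x => 1 - (χ : Spc n → ℝ) (L x) :=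
      contDiff_const.sub (hχd.comp L.contDiff)
    have hud : ContDiff ℝ ((⊤ : ℕ∞) : WithTop ℕ∞) (u m) :=
      hsm.smul (f.smooth ⊤)
    have hzero : ∀ x, ‖x‖ < M → u m =ᶠ[𝓝 x] fun _ => 0 := by
      intro x hx
      filter_upwards [(isOpen_lt continuous_norm continuous_const).mem_nhds hx] with y hy
      have hle : ‖M⁻¹ • y‖ ≤ 1 := by
        rw [norm_smul, norm_inv, Real.norm_of_nonneg (by linarith), inv_mul_le_iff₀ (by linarith),
          mul_one]
        exact (show ‖y‖ < M from hy).le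
      simp [hu, ← hM, χ.one_of_mem_closedBall (mem_closedBall_zero_iff.2 (hle.trans hχ.ge))]
    have hLn : ‖L‖ ≤ 1 := by
      refine ContinuousLinearMap.opNorm_le_bound _ zero_le_one fun x => ?_
      simp only [L, ContinuousLinearMap.smul_apply, ContinuousLinearMap.id_apply, norm_smul,
        norm_inv, Real.norm_of_nonneg (zero_le_one.trans hM1), one_mul]
      exact mul_le_of_le_one_left (norm_nonneg _) (inv_le_one_of_one_le₀ hM1)
    have hfac : ∀ i x, ‖iteratedFDeriv ℝ i (fun y => 1 - (χ : Spc n → ℝ) (L y)) x‖ ≤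
        (if i = 0 then 1 else 0) + Dχ i := by
      intro i x
      rcases eq_or_ne i 0 with rfl | hi'
      · rw [norm_iteratedFDeriv_zero, if_pos rfl]
        refine (norm_sub_le _ _).trans (add_le_add (by norm_num) ?_)
        have h := hDχ' 0 (L x)
        rwa [norm_iteratedFDeriv_zero] at h
      · rw [if_neg hi', zero_add]
        have e : iteratedFDeriv ℝ i (fun y => 1 - (χ : Spc n → ℝ) (L y)) x =
            -(iteratedFDeriv ℝ i (χ : Spc n → ℝ) (L x)).compContinuousLinearMap fun _ => L := by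
          have hsm' : ContDiff ℝ i ((χ : Spc n → ℝ) ∘ L) :=
            (hχd.comp L.contDiff).of_le (by exact_mod_cast le_top)
          have h1 : (fun y => 1 - (χ : Spc n → ℝ) (L y)) =
              (fun _ => (1 : ℝ)) + fun y => -(((χ : Spc n → ℝ) ∘ L) y) := by
            funext y; simp [sub_eq_add_neg]
          rw [h1, iteratedFDeriv_add_apply contDiff_const.contDiffAt hsm'.neg.contDiffAt,
            iteratedFDeriv_const_of_ne hi', show (fun y => -(((χ : Spc n → ℝ) ∘ L) y)) = -((χ : Spc n → ℝ) ∘ L) from rfl,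
            iteratedFDeriv_neg_apply,
            L.iteratedFDeriv_comp_right hχd x (by exact_mod_cast le_top)]
          simp
        rw [e, norm_neg]
        refine (ContinuousMultilinearMap.norm_compContinuousLinearMap_le _ _).trans ?_
        refine (mul_le_of_le_one_right (norm_nonneg _) ?_).trans (hDχ' i (L x))
        exact Finset.prod_le_one (fun _ _ => norm_nonneg _) fun _ _ => hLn
    have hfin : ∀ i x, M ≤ ‖x‖ → ‖iteratedFDeriv ℝ i f x‖ * (1 + ‖x‖) ^ K ≤ Df i / M := by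
      intro i x hx
      rw [le_div_iff₀ (by linarith)]
      refine le_trans ?_ (hDf i x)
      rw [pow_succ, ← mul_assoc]
      gcongr
      linarith
    have h0 : ∀ x, ‖u m x‖ * (1 + ‖x‖) ^ K ≤
        (Df 0 + ((1 + Dχ 0) * Df 2 + 2 * Dχ 1 * Df 1 + Dχ 2 * Df 0)) / M := by
      intro x
      have := hDχ0 0; have := hDχ0 1; have := hDχ0 2
      have := hDf0 0; have := hDf0 1; have := hDf0 2
      rcases lt_or_ge ‖x‖ M with hx | hx
      · rw [(hzero x hx).eq_of_nhds, norm_zero, zero_mul]; positivity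
      · have h := hfin 0 x hx
        rw [norm_iteratedFDeriv_zero] at h
        refine le_trans ?_ (h.trans (div_le_div_of_nonneg_right
          (le_add_of_nonneg_right (by positivity)) (by linarith)))
        refine mul_le_mul_of_nonneg_right ?_ (by positivity)
        simp only [hu, norm_smul]
        refine mul_le_of_le_one_left (norm_nonneg _) ?_
        rw [Real.norm_eq_abs, abs_le]
        exact ⟨by linarith [χ.le_one (x := ((m : ℝ) + 1)⁻¹ • x)],
          by linarith [χ.nonneg (x := ((m : ℝ) + 1)⁻¹ • x)]⟩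
    have h2 : ∀ x, ‖iteratedFDeriv ℝ 2 (u m) x‖ * (1 + ‖x‖) ^ K ≤
        (Df 0 + ((1 + Dχ 0) * Df 2 + 2 * Dχ 1 * Df 1 + Dχ 2 * Df 0)) / M := by
      intro x
      have := hDχ0 0; have := hDχ0 1; have := hDχ0 2
      have := hDf0 0; have := hDf0 1; have := hDf0 2
      rcases lt_or_ge ‖x‖ M with hx | hx
      · rw [((hzero x hx).iteratedFDeriv ℝ 2).eq_of_nhds, iteratedFDeriv_fun_zero]
        simp only [Pi.zero_apply, norm_zero, zero_mul]; positivity
      · have h := norm_iteratedFDeriv_smul_le (𝕜 := ℝ) hsm (f.smooth ⊤) x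
          (n := 2) smooth_top_le
        simp only [Finset.sum_range_succ, Finset.sum_range_zero, zero_add, Nat.choose_zero_right,
          Nat.choose_one_right, Nat.choose_self, Nat.cast_one, one_mul, Nat.cast_ofNat,
          Nat.sub_zero, Nat.add_one_sub_one, Nat.sub_self] at h
        have b0 : ‖iteratedFDeriv ℝ 0 (fun y => 1 - (χ : Spc n → ℝ) (L y)) x‖ ≤ 1 + Dχ 0 := by
          simpa using hfac 0 x
        have b1 : ‖iteratedFDeriv ℝ 1 (fun y => 1 - (χ : Spc n → ℝ) (L y)) x‖ ≤ Dχ 1 := by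
          simpa using hfac 1 x
        have b2 : ‖iteratedFDeriv ℝ 2 (fun y => 1 - (χ : Spc n → ℝ) (L y)) x‖ ≤ Dχ 2 := by
          simpa using hfac 2 x
        have hux : u m = fun y => (1 - (χ : Spc n → ℝ) (L y)) • f y := rfl
        rw [hux]
        calc _ ≤ ((1 + Dχ 0) * ‖iteratedFDeriv ℝ 2 f x‖ + 2 * Dχ 1 * ‖iteratedFDeriv ℝ 1 f x‖ +
              Dχ 2 * ‖iteratedFDeriv ℝ 0 f x‖) * (1 + ‖x‖) ^ K := by
              refine mul_le_mul_of_nonneg_right (h.trans ?_) (by positivity)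
              gcongr
          _ = (1 + Dχ 0) * (‖iteratedFDeriv ℝ 2 f x‖ * (1 + ‖x‖) ^ K) +
              2 * Dχ 1 * (‖iteratedFDeriv ℝ 1 f x‖ * (1 + ‖x‖) ^ K) +
              Dχ 2 * (‖iteratedFDeriv ℝ 0 f x‖ * (1 + ‖x‖) ^ K) := by ring
          _ ≤ (1 + Dχ 0) * (Df 2 / M) + 2 * Dχ 1 * (Df 1 / M) + Dχ 2 * (Df 0 / M) := by
              gcongr <;> exact hfin _ _ hx
          _ ≤ _ := by
              rw [← mul_div_assoc, ← mul_div_assoc, ← mul_div_assoc, ← add_div, ← add_div]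
              exact div_le_div_of_nonneg_right (le_add_of_nonneg_left (hDf0 0)) (by linarith)
    have := Nice.of_bounds (hud.of_le smooth_top_le) h0 h2
    rwa [← mul_div_assoc, ← hE] at this
  exact ⟨E, hu_nice⟩

lemma Nice.sub_smul {V : Type*} [NormedAddCommGroup V] {K : ℕ} {B B' : ℝ} {g h : V → ℂ}
    (hg : Nice K B g) (hh : Nice K B' h) (c : ℂ) :
    Nice K (B + ‖c‖ * B') (fun x => g x - c • h x) := by
  refine ⟨hg.cont.sub (hh.cont.const_smul c), fun x => ?_, fun x z hz => ?_⟩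
  · refine (mul_le_mul_of_nonneg_right (norm_sub_le _ _) (by positivity)).trans ?_
    rw [add_mul]
    refine add_le_add (hg.decay x) ?_
    rw [norm_smul, mul_assoc]
    exact mul_le_mul_of_nonneg_left (hh.decay x) (norm_nonneg _)
  · have e : sdiff (fun x => g x - c • h x) x z = sdiff g x z - c • sdiff h x z := by
      simp only [sdiff, smul_sub, smul_add]; abel
    rw [e]
    refine (mul_le_mul_of_nonneg_right (norm_sub_le _ _) (by positivity)).trans ?_
    rw [add_mul, add_mul]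
    refine add_le_add (hg.second x z hz) ?_
    rw [norm_smul, mul_assoc, mul_assoc]
    exact mul_le_mul_of_nonneg_left (hh.second x z hz) (norm_nonneg _)

lemma integral_lop_eq_zero_of_hasCompactSupport [Nontrivial (Spc n)] {A : Spc n → ℝ}
    (hA : AEStronglyMeasurable A volume) (hi : Integrable fun x => |A x| * wt x)
    (heq : ∀ h : Spc n → ℝ, ContDiff ℝ ((⊤ : ℕ∞) : WithTop ℕ∞) h → HasCompactSupport h →
      ∫ x, h x = 0 → ∫ x, A x * fracLap h x = 0)
    {φ : Spc n → ℂ} (hφs : HasCompactSupport φ) (hφd : ContDiff ℝ ((⊤ : ℕ∞) : WithTop ℕ∞) φ)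
    (hφm : ∫ x, φ x = 0) : ∫ x, A x • lop φ x = 0 := by
  have hn : finrank ℝ (Spc n) = n := finrank_euclideanSpace_fin
  obtain ⟨C, hC0, hCd⟩ := lop_decay (V := Spc n) (F := ℂ)
  obtain ⟨B, hB⟩ := exists_nice (hφs.toSchwartzMap hφd) (finrank ℝ (Spc n) + 4)
  change Nice (finrank ℝ (Spc n) + 4) B φ at hB
  have hiφ : Integrable fun x => A x • lop φ x :=
    integrable_smul_of_le_wt hA hi (continuous_lop hB).aestronglyMeasurable
      (fun x => norm_le_wt (hCd _ _ hB hφm x))
  have part : ∀ L : ℂ →L[ℝ] ℝ, L (∫ x, A x • lop φ x) = 0 := by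
    intro L
    rw [← L.integral_comp_comm hiφ]
    have h := heq (fun x => L (φ x)) (L.contDiff.comp hφd) (hφs.comp_left (map_zero L))
      (by rw [L.integral_comp_comm (hB.integrable (by omega)), hφm, map_zero])
    rw [← h]
    exact integral_congr_ae (Eventually.of_forall fun x => by
      simp only [map_smul, smul_eq_mul, fracLap_comp L hB])
  exact Complex.ext (part Complex.reCLM) (part Complex.imCLM)

/-- The equation of `LiouvilleStmt` holds for every mean-zero Schwartz function. -/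
lemma integral_lop_schwartz_eq_zero [Nontrivial (Spc n)] {A : Spc n → ℝ}
    (hA : AEStronglyMeasurable A volume) (hi : Integrable fun x => |A x| * wt x)
    (heq : ∀ h : Spc n → ℝ, ContDiff ℝ ((⊤ : ℕ∞) : WithTop ℕ∞) h → HasCompactSupport h →
      ∫ x, h x = 0 → ∫ x, A x * fracLap h x = 0)
    (f : 𝓢(Spc n, ℂ)) (hf : ∫ x, f x = 0) : ∫ x, A x • lop (f : Spc n → ℂ) x = 0 := by
  have hn : finrank ℝ (Spc n) = n := finrank_euclideanSpace_fin
  set K := n + 4 with hK
  obtain ⟨C, hC0, hCd⟩ := lop_decay (V := Spc n) (F := ℂ)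
  rw [hn] at hCd
  have hwt : ∀ {B : ℝ} {h : Spc n → ℂ}, Nice K B h → ∫ y, h y = 0 →
      ∀ x, ‖lop h x‖ ≤ C * B * wt x := fun hh hm x => norm_le_wt (by rw [hn]; exact hCd _ _ hh hm x)
  have hlop : ∀ {B : ℝ} {h : Spc n → ℂ}, Nice K B h → ∫ y, h y = 0 →
      Integrable fun x => A x • lop h x := fun hh hm =>
    integrable_smul_of_le_wt hA hi (continuous_lop hh).aestronglyMeasurable (hwt hh hm)
  obtain ⟨Bf, hBf⟩ := exists_nice f K
  let χ : ContDiffBump (0 : Spc n) := ⟨1, 2, one_pos, one_lt_two⟩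
  let ψb : ContDiffBump (0 : Spc n) := ⟨1, 2, one_pos, one_lt_two⟩
  set ψ : Spc n → ℂ := fun x => ((ψb.normed volume x : ℝ) : ℂ) with hψ
  have hψs : HasCompactSupport ψ := ψb.hasCompactSupport_normed.comp_left Complex.ofReal_zero
  have hψd : ContDiff ℝ ((⊤ : ℕ∞) : WithTop ℕ∞) ψ :=
    Complex.ofRealCLM.contDiff.comp ψb.contDiff_normed
  have hψ1 : ∫ x, ψ x = 1 := by
    rw [hψ, integral_complex_ofReal, ψb.integral_normed, Complex.ofReal_one]
  obtain ⟨Bψ, hBψ⟩ := exists_nice (hψs.toSchwartzMap hψd) K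
  change Nice K Bψ ψ at hBψ
  -- the error of the cut-off at scale `m`
  obtain ⟨E, hu_nice⟩ := exists_cutoff_nice f K χ rfl
  set u : ℕ → Spc n → ℂ := fun m x => (1 - χ ((((m : ℝ) + 1))⁻¹ • x)) • f x with hu
  replace hu_nice : ∀ m : ℕ, Nice K (E / ((m : ℝ) + 1)) (u m) := hu_nice
  have hχd : ContDiff ℝ ((⊤ : ℕ∞) : WithTop ℕ∞) (χ : Spc n → ℝ) := χ.contDiff
  -- mean-zero correction
  set J : ℝ := ∫ x : Spc n, (1 + ‖x‖) ^ (-(K : ℝ))
  have hKn : finrank ℝ (Spc n) < K := by omega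
  have hJ : Integrable fun x : Spc n => (1 + ‖x‖) ^ (-(K : ℝ)) :=
    integrable_one_add_norm (by exact_mod_cast hKn)
  have hc : ∀ m : ℕ, ‖∫ x, u m x‖ ≤ E / ((m : ℝ) + 1) * J := fun m => by
    refine (norm_integral_le_of_norm_le (hJ.const_mul (E / ((m : ℝ) + 1)))
      (Eventually.of_forall fun x => ?_)).trans_eq (integral_const_mul _ _)
    rw [Real.rpow_neg (by positivity), Real.rpow_natCast, ← div_eq_mul_inv, le_div_iff₀ (by positivity)]
    exact (hu_nice m).decay x
  have hnadd : ∀ m : ℕ, Nice K (E / ((m : ℝ) + 1) + ‖∫ x, u m x‖ * Bψ)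
      (fun x => u m x - (∫ y, u m y) • ψ x) := fun m => (hu_nice m).sub_smul hBψ _
  have hum : ∀ m : ℕ, ∫ x, (u m x - (∫ y, u m y) • ψ x) = 0 := fun m => by
    rw [integral_sub ((hu_nice m).integrable hKn) ((hBψ.integrable hKn).smul (∫ y, u m y) :
        Integrable fun x => (∫ y, u m y) • ψ x), integral_smul, hψ1]
    simp
  -- the compactly supported part is killed
  have hkill : ∀ m : ℕ, ∫ x, A x • lop (fun x => f x - (u m x - (∫ y, u m y) • ψ x)) x = 0 := by
    intro m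
    have hφeq : (fun x => f x - (u m x - (∫ y, u m y) • ψ x)) =
        fun x => χ (((m : ℝ) + 1)⁻¹ • x) • f x + (∫ y, u m y) • ψ x := by
      funext x; simp only [hu, sub_smul, one_smul]; abel
    have hφm : ∫ x, (f x - (u m x - (∫ y, u m y) • ψ x)) = 0 := by
      rw [integral_sub (hBf.integrable hKn) ((hnadd m).integrable hKn), hf, hum, sub_zero]
    refine integral_lop_eq_zero_of_hasCompactSupport hA hi heq ?_ ?_ hφm
    · rw [hφeq]
      refine HasCompactSupport.add ?_ (hψs.smul_left (f := fun _ => ∫ y, u m y))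
      exact (χ.hasCompactSupport.comp_homeomorph
        (Homeomorph.smulOfNeZero (((m : ℝ) + 1)⁻¹) (by positivity))).smul_right
    · rw [hφeq]
      exact ((hχd.comp (contDiff_const_smul _)).smul (f.smooth ⊤)).add (hψd.const_smul _)
  have hbd : ∀ m : ℕ, ‖∫ x, A x • lop (f : Spc n → ℂ) x‖ ≤
      C * (E / ((m : ℝ) + 1) + E / ((m : ℝ) + 1) * J * Bψ) * ∫ x, |A x| * wt x := by
    intro m
    set g : Spc n → ℂ := fun x => u m x - (∫ y, u m y) • ψ x
    have hg := hnadd m
    have he : ∫ x, A x • lop (f : Spc n → ℂ) x = ∫ x, A x • lop g x := by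
      have h := hkill m
      simp only [lop_sub hBf hg, smul_sub] at h
      rwa [integral_sub (hlop hBf hf) (hlop hg (hum m)), sub_eq_zero] at h
    rw [he]
    refine (norm_integral_le_of_norm_le (hi.const_mul _) (Eventually.of_forall fun x => ?_)).trans
      (le_of_eq (integral_const_mul _ _))
    rw [norm_smul, Real.norm_eq_abs]
    calc |A x| * ‖lop g x‖
        ≤ |A x| * (C * (E / ((m : ℝ) + 1) + ‖∫ y, u m y‖ * Bψ) * wt x) :=
          mul_le_mul_of_nonneg_left (hwt hg (hum m) x) (abs_nonneg _)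
      _ ≤ |A x| * (C * (E / ((m : ℝ) + 1) + E / ((m : ℝ) + 1) * J * Bψ) * wt x) := by
          gcongr
          · exact wt_nonneg x
          · exact hBψ.nonneg
          · exact hc m
      _ = _ := by ring
  have hlim : Tendsto (fun m : ℕ => C * (E / ((m : ℝ) + 1) + E / ((m : ℝ) + 1) * J * Bψ) *
      ∫ x, |A x| * wt x) atTop (𝓝 0) := by
    have h0 := tendsto_one_div_add_atTop_nhds_zero_nat (𝕜 := ℝ)
    have := (h0.const_mul (C * (E + E * J * Bψ) * ∫ x, |A x| * wt x))
    rw [mul_zero] at this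
    refine this.congr fun m => ?_
    field_simp
  exact norm_le_zero_iff.1 (ge_of_tendsto hlim (Eventually.of_forall hbd))

end Vale.Agent.P120.Liouville
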