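import Mathlib
import Vale.Agent.P120.Liouville.Decay

/-!
The Fourier multiplier of `lop` is a positive multiple of `‖ξ‖`.
-/

namespace Vale.Agent.P120.Liouville

open MeasureTheory Set Filter Topology Module
open scoped ENNReal SchwartzMap FourierTransform RealInnerProductSpace Real

variable {V : Type*} [NormedAddCommGroup V] [InnerProductSpace ℝ V] [FiniteDimensional ℝ V]
  [MeasurableSpace V] [BorelSpace V]

/-- The symbol of `lop`. -/
noncomputable def symbol (ξ : V) : ℝ :=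
  ∫ z : V, (‖z‖ ^ (finrank ℝ V + 1))⁻¹ * (1 - Real.cos (2 * π * ⟪z, ξ⟫))

omit [FiniteDimensional ℝ V] [MeasurableSpace V] [BorelSpace V] in
lemma weight_cos_nonneg (ξ z : V) :
    0 ≤ (‖z‖ ^ (finrank ℝ V + 1))⁻¹ * (1 - Real.cos (2 * π * ⟪z, ξ⟫)) :=
  mul_nonneg (by positivity) (sub_nonneg.2 (Real.cos_le_one _))

variable [Nontrivial V]

lemma integrable_symbol (ξ : V) :
    Integrable fun z : V => (‖z‖ ^ (finrank ℝ V + 1))⁻¹ * (1 - Real.cos (2 * π * ⟪z, ξ⟫)) := by
  refine (integrable_ker0.const_mul (2 + (2 * π * ‖ξ‖) ^ 2)).mono'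
    (measurable_weight.mul (by fun_prop)).aestronglyMeasurable (Eventually.of_forall fun z => ?_)
  rw [Real.norm_of_nonneg (weight_cos_nonneg ξ z), ker0, mul_left_comm]
  refine mul_le_mul_of_nonneg_left ?_ (by positivity)
  rcases le_or_gt (‖z‖ ^ 2) 1 with h | h
  · rw [min_eq_left h]
    have h1 := Real.one_sub_sq_div_two_le_cos (x := 2 * π * ⟪z, ξ⟫)
    have h2 : ⟪z, ξ⟫ ^ 2 ≤ ‖z‖ ^ 2 * ‖ξ‖ ^ 2 := by
      rw [← mul_pow, ← sq_abs ⟪z, ξ⟫]
      exact pow_le_pow_left₀ (abs_nonneg _) (abs_real_inner_le_norm z ξ) 2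
    have h3 := mul_le_mul_of_nonneg_left h2 (sq_nonneg (2 * π))
    nlinarith [sq_nonneg ⟪z, ξ⟫, sq_nonneg ‖z‖]
  · rw [min_eq_right h.le, mul_one]
    nlinarith [Real.neg_one_le_cos (2 * π * ⟪z, ξ⟫), sq_nonneg (2 * π * ‖ξ‖)]

lemma exists_symbol : ∃ c : ℝ, 0 < c ∧ ∀ ξ : V, symbol ξ = c * ‖ξ‖ := by
  obtain ⟨e, he⟩ : ∃ e : V, ‖e‖ = 1 := exists_norm_eq V zero_le_one
  refine ⟨symbol e, ?_, fun ξ => ?_⟩
  · rw [symbol, integral_pos_iff_support_of_nonneg (weight_cos_nonneg e) (integrable_symbol e)]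
    set U : Set V := {z | z ≠ 0 ∧ Real.cos (2 * π * ⟪z, e⟫) < 1}
    have hU : IsOpen U :=
      isOpen_ne.inter (isOpen_lt (show Continuous fun z : V => Real.cos (2 * π * ⟪z, e⟫) by fun_prop) continuous_const)
    have hne : U.Nonempty := by
      refine ⟨(1 / 2 : ℝ) • e, smul_ne_zero (by norm_num) (norm_ne_zero_iff.1 (by rw [he]; norm_num)), ?_⟩
      rw [real_inner_smul_left, real_inner_self_eq_norm_sq, he]
      ring_nf
      rw [Real.cos_pi]
      norm_num
    refine (hU.measure_pos volume hne).trans_le (measure_mono fun z hz => ?_)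
    exact mul_ne_zero (inv_ne_zero (pow_ne_zero _ (norm_ne_zero_iff.2 hz.1))) (sub_pos.2 hz.2).ne'
  · rcases eq_or_ne ξ 0 with rfl | hξ
    · simp [symbol]
    set t := ‖ξ‖
    have ht : 0 < t := norm_pos_iff.2 hξ
    set R : V ≃ₗᵢ[ℝ] V := Submodule.reflection (ℝ ∙ (e - t⁻¹ • ξ))ᗮ
    have hR : R e = t⁻¹ • ξ := Submodule.reflection_sub (by
      rw [he, norm_smul, norm_inv, Real.norm_of_nonneg ht.le, inv_mul_cancel₀ ht.ne'])
    set G : V → ℝ := fun z => (‖z‖ ^ (finrank ℝ V + 1))⁻¹ * (1 - Real.cos (2 * π * ⟪z, e⟫))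
    have h1 : symbol ξ = ∫ z : V, t ^ (finrank ℝ V + 1) * G (t • z) := by
      rw [symbol, ← (R.measurePreserving).integral_comp R.toHomeomorph.measurableEmbedding
        (fun z => (‖z‖ ^ (finrank ℝ V + 1))⁻¹ * (1 - Real.cos (2 * π * ⟪z, ξ⟫)))]
      refine integral_congr_ae (Eventually.of_forall fun z => ?_)
      have hin : ⟪R z, ξ⟫ = ⟪t • z, e⟫ := by
        rw [show ξ = t • R e by rw [hR, smul_smul, mul_inv_cancel₀ ht.ne', one_smul],
          inner_smul_right, R.inner_map_map, real_inner_smul_left]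
      simp only [G, LinearIsometryEquiv.norm_map, hin, norm_smul, Real.norm_of_nonneg ht.le, mul_pow,
        mul_inv]
      field_simp
    rw [h1, integral_const_mul, Measure.integral_comp_smul_of_nonneg volume G t (hR := ht.le)]
    simp only [smul_eq_mul, G, symbol, pow_succ]
    field_simp

variable {K : ℕ} {B : ℝ} {f : V → ℂ}

omit [FiniteDimensional ℝ V] [Nontrivial V] in
lemma norm_char_smul (a : ℝ) (u : ℂ) : ‖𝐞 a • u‖ = ‖u‖ := Circle.norm_smul _ _

lemma integrable_joint (hf : Nice K B f) (hK : finrank ℝ V < K) (ξ : V) :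
    Integrable (fun p : V × V =>
      𝐞 (-⟪p.1, ξ⟫) • ((‖p.2‖ ^ (finrank ℝ V + 1))⁻¹ • sdiff f p.1 p.2))
      (volume.prod volume) := by
  have hB := hf.nonneg
  have hc := hf.cont
  have hi := hf.integrable hK
  have hchar : Continuous fun p : V × V => 𝐞 (-⟪p.1, ξ⟫) :=
    Real.continuous_fourierChar.comp (by fun_prop)
  have hm : AEStronglyMeasurable (fun p : V × V =>
      𝐞 (-⟪p.1, ξ⟫) • ((‖p.2‖ ^ (finrank ℝ V + 1))⁻¹ • sdiff f p.1 p.2)) (volume.prod volume) :=
    hchar.aestronglyMeasurable.smul ((measurable_weight.comp measurable_snd).aestronglyMeasurable.smul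
      (show Continuous fun p : V × V => sdiff f p.1 p.2 by unfold sdiff; fun_prop).aestronglyMeasurable)
  have hs : ∀ z, Integrable fun x => sdiff f x z := fun z =>
    ((hi.add hi).sub (hi.comp_add_right z)).sub (hi.comp_sub_right z)
  refine (integrable_prod_iff' hm).2 ⟨Eventually.of_forall fun z => ?_, ?_⟩
  · exact (Real.fourierIntegral_convergent_iff ξ).2
      ((hs z).smul ((‖z‖ ^ (finrank ℝ V + 1))⁻¹) :
        Integrable fun x => (‖z‖ ^ (finrank ℝ V + 1))⁻¹ • sdiff f x z)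
  · set I : ℝ := ∫ x, ‖f x‖
    set J : ℝ := ∫ x : V, (1 + ‖x‖) ^ (-(K : ℝ))
    have hJ : Integrable fun x : V => (1 + ‖x‖) ^ (-(K : ℝ)) :=
      integrable_one_add_norm (by exact_mod_cast hK)
    have hI0 : 0 ≤ I := integral_nonneg fun x => norm_nonneg _
    have hJ0 : 0 ≤ J := integral_nonneg fun x => by positivity
    have hsmall : ∀ z : V, ‖z‖ ≤ 1 → ∫ x, ‖sdiff f x z‖ ≤ B * J * ‖z‖ ^ 2 := by
      intro z hz
      refine (integral_mono (hs z).norm (hJ.const_mul (B * ‖z‖ ^ 2)) fun x => ?_).trans_eq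
        (by rw [integral_const_mul]; ring)
      rw [Real.rpow_neg (by positivity), Real.rpow_natCast, ← div_eq_mul_inv,
        le_div_iff₀ (by positivity)]
      exact hf.second x z (hz.trans (le_max_left _ _))
    have hbig : ∀ z : V, ∫ x, ‖sdiff f x z‖ ≤ 4 * I := by
      intro z
      have e1 : Integrable fun x => ‖f x‖ + ‖f x‖ := hi.norm.add hi.norm
      have e2 : Integrable fun x => ‖f x‖ + ‖f x‖ + ‖f (x + z)‖ :=
        e1.add (hi.norm.comp_add_right z)
      have e3 : Integrable fun x => ‖f x‖ + ‖f x‖ + ‖f (x + z)‖ + ‖f (x - z)‖ :=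
        e2.add (hi.norm.comp_sub_right z)
      refine (integral_mono (hs z).norm e3 fun x => ?_).trans_eq ?_
      · exact (norm_sub_le _ _).trans (add_le_add ((norm_sub_le _ _).trans
          (add_le_add (norm_add_le _ _) le_rfl)) le_rfl)
      · rw [integral_add e2 (hi.norm.comp_sub_right z), integral_add e1 (hi.norm.comp_add_right z),
          integral_add hi.norm hi.norm, integral_add_right_eq_self (fun x => ‖f x‖),
          integral_sub_right_eq_self (fun x => ‖f x‖)]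
        simp only [I]; ring
    refine (integrable_ker0.const_mul (max (B * J) (4 * I))).mono'
      hm.norm.prod_swap.integral_prod_right'
      (Eventually.of_forall fun z => ?_)
    simp only [norm_char_smul, norm_smul (α := ℝ) (β := ℂ), integral_const_mul, norm_inv, norm_pow,
      norm_norm, norm_mul]
    have h0 : 0 ≤ ∫ x, ‖sdiff f x z‖ := integral_nonneg fun x => norm_nonneg _
    rw [Real.norm_of_nonneg h0, ker0, mul_left_comm]
    refine mul_le_mul_of_nonneg_left ?_ (by positivity)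
    rcases le_or_gt ‖z‖ 1 with hz | hz
    · rw [min_eq_left (by nlinarith [norm_nonneg z])]
      exact (hsmall z hz).trans (mul_le_mul_of_nonneg_right (le_max_left _ _) (sq_nonneg _))
    · rw [min_eq_right (by nlinarith), mul_one]
      exact (hbig z).trans (le_max_right _ _)

/-- `lop` multiplies the Fourier transform by `symbol`. -/
lemma fourier_lop (hf : Nice K B f) (hK : finrank ℝ V < K) (ξ : V) :
    𝓕 (lop f) ξ = (symbol ξ : ℂ) * 𝓕 f ξ := by
  have hi := hf.integrable hK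
  set w : V → ℝ := fun z => (‖z‖ ^ (finrank ℝ V + 1))⁻¹
  have hinner : ∀ z, ∫ x, 𝐞 (-⟪x, ξ⟫) • sdiff f x z =
      ((2 * (1 - Real.cos (2 * π * ⟪z, ξ⟫)) : ℝ) : ℂ) * 𝓕 f ξ := by
    intro z
    have hi0 : Integrable fun x => 𝐞 (-⟪x, ξ⟫) • f x := (Real.fourierIntegral_convergent_iff ξ).2 hi
    have hsh : ∀ a : V, ∫ x, 𝐞 (-⟪x, ξ⟫) • f (x + a) = 𝐞 ⟪a, ξ⟫ • 𝓕 f ξ := fun a =>
      congrFun (VectorFourier.fourierIntegral_comp_add_right 𝐞 volume (innerₗ V) f a) ξ
    have hp : Integrable fun x => 𝐞 (-⟪x, ξ⟫) • f (x + z) :=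
      (Real.fourierIntegral_convergent_iff ξ).2 (hi.comp_add_right z)
    have hq : Integrable fun x => 𝐞 (-⟪x, ξ⟫) • f (x + -z) :=
      (Real.fourierIntegral_convergent_iff ξ).2 (hi.comp_add_right (-z))
    have e1 : Integrable fun x => 𝐞 (-⟪x, ξ⟫) • f x + 𝐞 (-⟪x, ξ⟫) • f x := hi0.add hi0
    have e2 : Integrable fun x =>
        𝐞 (-⟪x, ξ⟫) • f x + 𝐞 (-⟪x, ξ⟫) • f x - 𝐞 (-⟪x, ξ⟫) • f (x + z) := e1.sub hp
    have he : (fun x => 𝐞 (-⟪x, ξ⟫) • sdiff f x z) = fun x =>
        𝐞 (-⟪x, ξ⟫) • f x + 𝐞 (-⟪x, ξ⟫) • f x - 𝐞 (-⟪x, ξ⟫) • f (x + z) -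
          𝐞 (-⟪x, ξ⟫) • f (x + -z) := by
      funext x; simp only [sdiff, smul_sub, smul_add, sub_eq_add_neg x z]
    rw [he, integral_sub e2 hq, integral_sub e1 hp, integral_add hi0 hi0, hsh, hsh,
      ← Real.fourier_eq]
    simp only [inner_neg_left, Circle.smul_def, smul_eq_mul, Real.fourierChar_apply]
    have hcos : (Complex.exp (↑(2 * π * ⟪z, ξ⟫) * Complex.I) +
        Complex.exp (↑(2 * π * -⟪z, ξ⟫) * Complex.I)) = 2 * (Real.cos (2 * π * ⟪z, ξ⟫) : ℂ) := by
      rw [Complex.ofReal_cos, Complex.two_cos]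
      congr 1
      push_cast; ring_nf
    push_cast at hcos ⊢
    linear_combination (-(𝓕 f ξ)) * hcos
  have hj := integrable_joint hf hK ξ
  calc 𝓕 (lop f) ξ
      = ∫ x, (1 / 2 : ℝ) • ∫ z, 𝐞 (-⟪x, ξ⟫) • (w z • sdiff f x z) := by
        rw [Real.fourier_eq]
        refine integral_congr_ae (Eventually.of_forall fun x => ?_)
        simp only [lop, w, Circle.smul_def, integral_smul]
        rw [smul_comm]
    _ = (1 / 2 : ℝ) • ∫ z, ∫ x, 𝐞 (-⟪x, ξ⟫) • (w z • sdiff f x z) := by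
        rw [integral_smul, integral_integral_swap hj]
    _ = (1 / 2 : ℝ) • ∫ z, ((w z * (2 * (1 - Real.cos (2 * π * ⟪z, ξ⟫))) : ℝ) : ℂ) * 𝓕 f ξ := by
        congr 1
        refine integral_congr_ae (Eventually.of_forall fun z => ?_)
        simp only [Circle.smul_def, smul_comm _ (w z), integral_smul]
        have := hinner z
        simp only [Circle.smul_def] at this
        rw [this, Complex.real_smul]
        push_cast; ring
    _ = (symbol ξ : ℂ) * 𝓕 f ξ := by
        rw [integral_mul_const, integral_complex_ofReal, Complex.real_smul]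
        have : ∫ z, w z * (2 * (1 - Real.cos (2 * π * ⟪z, ξ⟫))) = 2 * symbol ξ := by
          rw [symbol, ← integral_const_mul]
          exact integral_congr_ae (Eventually.of_forall fun z => by simp only [w]; ring)
        rw [this]; push_cast; ring

end Vale.Agent.P120.Liouville
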