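import Mathlib
import Vale.Agent.P120.Statements
import Vale.Agent.P120.Liouville.Multiplier
import Vale.Agent.P120.Liouville.Approx

/-!
`A` integrates to zero against smooth compact functions whose moments of order 0 and 1 vanish.
-/

namespace Vale.Agent.P120.Liouville

open MeasureTheory Set Filter Topology Module
open scoped ENNReal SchwartzMap FourierTransform RealInnerProductSpace Real

variable {n : ℕ}

/-- `A` annihilates functions with Fourier transform supported away from the origin. -/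
lemma integral_fourierInv_eq_zero [Nontrivial (Spc n)] {A : Spc n → ℝ}
    (hA : AEStronglyMeasurable A volume) (hi : Integrable fun x => |A x| * wt x)
    (heq : ∀ h : Spc n → ℝ, ContDiff ℝ ((⊤ : ℕ∞) : WithTop ℕ∞) h → HasCompactSupport h →
      ∫ x, h x = 0 → ∫ x, A x * fracLap h x = 0)
    {G : Spc n → ℂ} (hGd : ContDiff ℝ ((⊤ : ℕ∞) : WithTop ℕ∞) G) (hGs : HasCompactSupport G)
    (hG0 : G =ᶠ[𝓝 0] 0) : ∫ x, A x • 𝓕⁻ G x = 0 := by
  have hn : finrank ℝ (Spc n) = n := finrank_euclideanSpace_fin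
  obtain ⟨c, hc, hsym⟩ := exists_symbol (V := Spc n)
  set H : Spc n → ℂ := fun ξ => (((c * ‖ξ‖)⁻¹ : ℝ) : ℂ) * G ξ with hH
  have hHd : ContDiff ℝ ((⊤ : ℕ∞) : WithTop ℕ∞) H := by
    rw [contDiff_iff_contDiffAt]
    intro ξ
    rcases eq_or_ne ξ 0 with rfl | hξ
    · exact (contDiffAt_const (c := (0 : ℂ))).congr_of_eventuallyEq
        (hG0.mono fun x hx => by simp only [hH, hx, Pi.zero_apply, mul_zero])
    · exact (Complex.ofRealCLM.contDiff.contDiffAt.comp ξ
        ((contDiffAt_const.mul (contDiffAt_norm ℝ hξ)).inv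
          (mul_ne_zero hc.ne' (norm_ne_zero_iff.2 hξ)))).mul hGd.contDiffAt
  have hHs : HasCompactSupport H := hGs.mul_left
  set f : 𝓢(Spc n, ℂ) := 𝓕⁻ (hHs.toSchwartzMap hHd) with hfdef
  have hFf : 𝓕 (f : Spc n → ℂ) = H := by
    rw [← SchwartzMap.fourier_coe, hfdef, FourierTransform.fourier_fourierInv_eq]
    rfl
  have hmean : ∫ x, f x = 0 := by
    have h := congrFun hFf 0
    rw [Real.fourier_eq] at h
    simpa [hH] using h
  obtain ⟨B, hB⟩ := exists_nice f (finrank ℝ (Spc n) + 4)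
  have hF : 𝓕 (lop (f : Spc n → ℂ)) = G := by
    funext ξ
    rw [fourier_lop hB (by omega), congrFun hFf ξ, hsym]
    rcases eq_or_ne ξ 0 with rfl | hξ
    · simp [hH, show G 0 = 0 from hG0.eq_of_nhds]
    · simp only [hH, ← mul_assoc, ← Complex.ofReal_mul,
        mul_inv_cancel₀ (mul_ne_zero hc.ne' (norm_ne_zero_iff.2 hξ)), Complex.ofReal_one, one_mul]
  obtain ⟨C, hC0, hCd⟩ := lop_decay (V := Spc n) (F := ℂ)
  have hint : Integrable (lop (f : Spc n → ℂ)) := by
    refine ((integrable_wt).const_mul (C * B)).mono' (continuous_lop hB).aestronglyMeasurable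
      (Eventually.of_forall fun x => norm_le_wt (hCd _ _ hB hmean x))
  have hinv : 𝓕⁻ G = lop (f : Spc n → ℂ) := by
    rw [← hF]
    refine (continuous_lop hB).fourierInv_fourier_eq hint ?_
    rw [hF]
    exact hGd.continuous.integrable_of_hasCompactSupport hGs
  rw [hinv]
  exact integral_lop_schwartz_eq_zero hA hi heq f hmean

/-- The rescaling of a smoothing kernel. -/
noncomputable def scaled (ψ : Spc n → ℂ) (R : ℝ) (v : Spc n) : ℂ := (R ^ n)⁻¹ • ψ (R⁻¹ • v)

/-- `φ` smoothed at scale `R`. -/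
noncomputable def smooth (φ : Spc n → ℝ) (ψ : Spc n → ℂ) (R : ℝ) (x : Spc n) : ℂ :=
  ∫ y, φ y • scaled ψ R (x - y)

lemma fourierInv_cutoff {χ : Spc n → ℂ} (hχ : Continuous χ) (hχs : HasCompactSupport χ)
    {φ : Spc n → ℝ} (hφ : Continuous φ) (hφs : HasCompactSupport φ) {R : ℝ} (hR : 0 < R)
    (x : Spc n) :
    𝓕⁻ (fun ξ => χ (R • ξ) * 𝓕 (fun y => (φ y : ℂ)) ξ) x = smooth φ (𝓕⁻ χ) R x := by
  have hn : finrank ℝ (Spc n) = n := finrank_euclideanSpace_fin
  have hsc : Continuous fun ξ : Spc n => χ (R • ξ) := hχ.comp (continuous_const_smul R)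
  have hscs : HasCompactSupport fun ξ : Spc n => χ (R • ξ) :=
    hχs.comp_homeomorph (Homeomorph.smulOfNeZero R hR.ne')
  have hcs : ∀ v : Spc n, ∫ ξ, 𝐞 ⟪ξ, v⟫ • χ (R • ξ) = scaled (𝓕⁻ χ) R v := by
    intro v
    have e : (fun ξ : Spc n => 𝐞 ⟪ξ, v⟫ • χ (R • ξ)) =
        fun ξ => (fun u => 𝐞 ⟪u, R⁻¹ • v⟫ • χ u) (R • ξ) := by
      funext ξ
      simp only [real_inner_smul_left, real_inner_smul_right]
      congr 2
      field_simp
    rw [e, Measure.integral_comp_smul_of_nonneg volume (fun u => 𝐞 ⟪u, R⁻¹ • v⟫ • χ u) R (hR := hR.le),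
      hn, scaled, Real.fourierInv_eq]
  have hchar : ∀ {g : Spc n × Spc n → ℝ}, Continuous g → Continuous fun p => 𝐞 (g p) :=
    fun hg => Real.continuous_fourierChar.comp hg
  set g : Spc n × Spc n → ℂ := fun p => (𝐞 ⟪p.1, x - p.2⟫ • χ (R • p.1)) * (φ p.2 : ℂ) with hg
  have hgi : Integrable g (volume.prod volume) := by
    refine (((hsc.integrable_of_hasCompactSupport hscs).norm).mul_prod
      (hφ.integrable_of_hasCompactSupport hφs).norm).mono' ?_ (Eventually.of_forall fun p => ?_)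
    · refine (Continuous.mul ?_ (Complex.continuous_ofReal.comp (hφ.comp continuous_snd))).aestronglyMeasurable
      exact (hchar (by fun_prop)).smul (hsc.comp continuous_fst)
    · simp only [hg, norm_mul, norm_char_smul, Complex.norm_real]
      exact le_rfl
  rw [Real.fourierInv_eq]
  have e1 : ∀ ξ, 𝐞 ⟪ξ, x⟫ • (χ (R • ξ) * 𝓕 (fun y => (φ y : ℂ)) ξ) = ∫ y, g (ξ, y) := by
    intro ξ
    rw [Real.fourier_eq]
    simp only [hg, Circle.smul_def, smul_eq_mul, ← integral_const_mul]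
    refine integral_congr_ae (Eventually.of_forall fun y => ?_)
    simp only
    rw [inner_sub_right, sub_eq_add_neg, AddChar.map_add_eq_mul, Circle.coe_mul, real_inner_comm ξ y]
    ring
  simp only [e1]
  rw [integral_integral_swap hgi]
  refine integral_congr_ae (Eventually.of_forall fun y => ?_)
  simp only [hg, integral_mul_const, hcs, Complex.real_smul]
  ring

lemma norm_smooth_le_one {φ : Spc n → ℝ} {ψ : Spc n → ℂ} {Bφ Bψ : ℝ}
    (hφ : ∀ y, |φ y| * (1 + ‖y‖) ^ (n + 2) ≤ Bφ) (hψi : Integrable fun z : Spc n =>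
      (1 + ‖z‖) ^ (-((n + 1 : ℕ) : ℝ)))
    (hψ : ∀ z, ‖ψ z‖ * (1 + ‖z‖) ^ (2 * n + 3) ≤ Bψ) {R : ℝ} (hR : R ∈ Set.Icc (0 : ℝ) 1) (x : Spc n) :
    ‖∫ z, φ (x - R • z) • ψ z‖ ≤
      Bφ * Bψ * (∫ z : Spc n, (1 + ‖z‖) ^ (-((n + 1 : ℕ) : ℝ))) * wt x := by
  have hn : finrank ℝ (Spc n) = n := finrank_euclideanSpace_fin
  refine (norm_integral_le_of_norm_le (g := fun z => Bφ * Bψ * wt x *
    (1 + ‖z‖) ^ (-((n + 1 : ℕ) : ℝ))) (hψi.const_mul _) (Eventually.of_forall fun z => ?_)).trans_eq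
    (by rw [integral_const_mul]; ring)
  have h1 : 1 + ‖x‖ ≤ (1 + ‖x - R • z‖) * (1 + ‖z‖) := by
    have h := norm_le_norm_sub_add x (R • z)
    have h2 : ‖R • z‖ ≤ ‖z‖ := by
      rw [norm_smul, Real.norm_of_nonneg hR.1]
      exact mul_le_of_le_one_left (norm_nonneg _) hR.2
    nlinarith [norm_nonneg (x - R • z), norm_nonneg z]
  have hB : 0 ≤ Bφ := le_trans (by positivity) (hφ 0)
  rw [norm_smul, Real.norm_eq_abs, wt, hn, Real.rpow_neg (by positivity), Real.rpow_natCast]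
  have e : Bφ * Bψ * ((1 + ‖x‖) ^ (n + 2))⁻¹ * ((1 + ‖z‖) ^ (n + 1))⁻¹ =
      Bφ * Bψ / ((1 + ‖x‖) ^ (n + 2) * (1 + ‖z‖) ^ (n + 1)) := by field_simp
  rw [e, le_div_iff₀ (by positivity)]
  calc |φ (x - R • z)| * ‖ψ z‖ * ((1 + ‖x‖) ^ (n + 2) * (1 + ‖z‖) ^ (n + 1))
      ≤ |φ (x - R • z)| * ‖ψ z‖ *
          (((1 + ‖x - R • z‖) * (1 + ‖z‖)) ^ (n + 2) * (1 + ‖z‖) ^ (n + 1)) := by gcongr
    _ = (|φ (x - R • z)| * (1 + ‖x - R • z‖) ^ (n + 2)) * (‖ψ z‖ * (1 + ‖z‖) ^ (2 * n + 3)) := by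
        rw [mul_pow, show 2 * n + 3 = (n + 2) + (n + 1) by omega, pow_add]; ring
    _ ≤ _ := mul_le_mul (hφ _) (hψ z) (by positivity) hB

lemma norm_smooth_le_wt {φ : Spc n → ℝ} (hφ : Continuous φ) (hφs : HasCompactSupport φ)
    (h0 : ∫ y, φ y = 0) (h1 : ∫ y, φ y • y = 0) {ψ : Spc n → ℂ} (hψ : ContDiff ℝ 2 ψ) {B : ℝ}
    (hB : ∀ p, ‖iteratedFDeriv ℝ 2 ψ p‖ * (1 + ‖p‖) ^ (n + 2) ≤ B) {R : ℝ} (hR : 1 ≤ R) (x : Spc n) :
    ‖smooth φ ψ R x‖ ≤
      B * (∫ y, |φ y| * (1 + ‖y‖) ^ (n + 4)) * ((R + ‖x‖) ^ (n + 2))⁻¹ := by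
  have hR0 : 0 < R := by linarith
  have hd : Differentiable ℝ ψ := hψ.differentiable (by norm_num)
  have hd2 : Differentiable ℝ (fderiv ℝ ψ) :=
    (hψ.fderiv_right (m := 1) (by norm_num)).differentiable (by norm_num)
  have hB0 : 0 ≤ B := le_trans (by positivity) (hB 0)
  set a := R⁻¹ • x
  set T : Spc n → ℂ := fun y => ψ (R⁻¹ • (x - y)) - ψ a - fderiv ℝ ψ a (-(R⁻¹ • y))
  have hT : ∀ y, ‖T y‖ ≤ B * (1 + ‖y‖) ^ (n + 2) / (1 + ‖a‖) ^ (n + 2) * (‖y‖ / R) ^ 2 := by
    intro y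
    set b := R⁻¹ • (x - y)
    set r := ‖y‖ / R
    set D := B * (1 + ‖y‖) ^ (n + 2) / (1 + ‖a‖) ^ (n + 2)
    have hry : r ≤ ‖y‖ := div_le_self (norm_nonneg _) hR
    have hba : b - a = -(R⁻¹ • y) := by simp only [b, a, smul_sub]; abel
    have hbn : ‖b - a‖ = r := by
      rw [hba, norm_neg, norm_smul, norm_inv, Real.norm_of_nonneg hR0.le, inv_mul_eq_div]
    have hD : ∀ p ∈ Metric.closedBall a r, ‖fderiv ℝ (fderiv ℝ ψ) p‖ ≤ D := by
      intro p hp
      rw [← norm_iteratedFDeriv_one, norm_iteratedFDeriv_fderiv]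
      have hp' : 1 + ‖a‖ ≤ (1 + ‖p‖) * (1 + ‖y‖) := by
        rw [Metric.mem_closedBall, dist_eq_norm] at hp
        have h := norm_sub_norm_le a p
        rw [norm_sub_rev] at h
        nlinarith [norm_nonneg p, norm_nonneg y]
      simp only [D]
      rw [le_div_iff₀ (by positivity)]
      calc ‖iteratedFDeriv ℝ 2 ψ p‖ * (1 + ‖a‖) ^ (n + 2)
          ≤ ‖iteratedFDeriv ℝ 2 ψ p‖ * ((1 + ‖p‖) * (1 + ‖y‖)) ^ (n + 2) := by gcongr
        _ = (‖iteratedFDeriv ℝ 2 ψ p‖ * (1 + ‖p‖) ^ (n + 2)) * (1 + ‖y‖) ^ (n + 2) := by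
            rw [mul_pow]; ring
        _ ≤ _ := by gcongr; exact hB p
    have hD0 : 0 ≤ D := by positivity
    have hr0 : 0 ≤ r := by positivity
    have ha : a ∈ Metric.closedBall a r := Metric.mem_closedBall_self hr0
    have hfd : ∀ p ∈ Metric.closedBall a r, ‖fderiv ℝ ψ p - fderiv ℝ ψ a‖ ≤ D * r := fun p hp =>
      ((convex_closedBall a r).norm_image_sub_le_of_norm_fderiv_le (fun q _ => hd2 q) hD ha hp).trans
        (mul_le_mul_of_nonneg_left (by rwa [Metric.mem_closedBall, dist_eq_norm] at hp) hD0)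
    have h := (convex_closedBall a r).norm_image_sub_le_of_norm_fderiv_le' (fun q _ => hd q) hfd ha
      (y := b) (by rw [Metric.mem_closedBall, dist_eq_norm, hbn])
    rw [hba, norm_neg, norm_smul, norm_inv, Real.norm_of_nonneg hR0.le, inv_mul_eq_div] at h
    calc ‖T y‖ ≤ D * r * r := h
      _ = D * r ^ 2 := by ring
  have hψc : Continuous ψ := hd.continuous
  have hTc : Continuous T := by simp only [T]; fun_prop
  have hi : ∀ {g : Spc n → ℂ}, Continuous g → Integrable fun y => φ y • g y := fun hg =>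
    (hφ.smul hg).integrable_of_hasCompactSupport hφs.smul_right
  have e : smooth φ ψ R x = (R ^ n)⁻¹ • ∫ y, φ y • T y := by
    rw [smooth]
    simp only [scaled, smul_comm (φ _) ((R ^ n)⁻¹)]
    rw [integral_smul]
    congr 1
    have hc : ∫ y, φ y • ψ a = 0 := by rw [integral_smul_const, h0, zero_smul]
    have hl : ∫ y, φ y • fderiv ℝ ψ a (-(R⁻¹ • y)) = 0 := by
      have e' : (fun y => φ y • fderiv ℝ ψ a (-(R⁻¹ • y))) =
          fun y => fderiv ℝ ψ a ((-R⁻¹) • (φ y • y)) := by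
        funext y; simp; ring
      have hI : Integrable fun y => (-R⁻¹) • (φ y • y) :=
        ((hφ.smul continuous_id).integrable_of_hasCompactSupport hφs.smul_right).smul (-R⁻¹)
      rw [e', ContinuousLinearMap.integral_comp_comm _ hI, integral_smul, h1, smul_zero, map_zero]
    have i1 : Integrable fun y => φ y • ψ (R⁻¹ • (x - y)) := hi (by fun_prop)
    have i2 : Integrable fun y => φ y • ψ a := hi continuous_const
    have i3 : Integrable fun y => φ y • fderiv ℝ ψ a (-(R⁻¹ • y)) := hi (by fun_prop)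
    have i12 : Integrable fun y => φ y • ψ (R⁻¹ • (x - y)) - φ y • ψ a := i1.sub i2
    have e3 : (fun y => φ y • T y) = fun y =>
        φ y • ψ (R⁻¹ • (x - y)) - φ y • ψ a - φ y • fderiv ℝ ψ a (-(R⁻¹ • y)) := by
      funext y; simp only [T, smul_sub (φ y)]
    rw [e3, integral_sub i12 i3, integral_sub i1 i2, hc, hl, sub_zero, sub_zero]
  rw [e, norm_smul, norm_inv, norm_pow, Real.norm_of_nonneg hR0.le]
  set I := ∫ y, |φ y| * (1 + ‖y‖) ^ (n + 4)
  have hb : ‖∫ y, φ y • T y‖ ≤ B / (1 + ‖a‖) ^ (n + 2) / R ^ 2 * I := by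
    refine (norm_integral_le_of_norm_le (g := fun y => B / (1 + ‖a‖) ^ (n + 2) / R ^ 2 *
      (|φ y| * (1 + ‖y‖) ^ (n + 4))) ((((hφ.abs).mul (by fun_prop : Continuous fun y : Spc n =>
        (1 + ‖y‖) ^ (n + 4))).integrable_of_hasCompactSupport hφs.norm.mul_right).const_mul _)
      (Eventually.of_forall fun y => ?_)).trans_eq (integral_const_mul _ _)
    rw [norm_smul, Real.norm_eq_abs]
    refine (mul_le_mul_of_nonneg_left (hT y) (abs_nonneg _)).trans ?_
    have h5 : ‖y‖ ^ 2 ≤ (1 + ‖y‖) ^ 2 := pow_le_pow_left₀ (norm_nonneg _) (by linarith) 2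
    calc |φ y| * (B * (1 + ‖y‖) ^ (n + 2) / (1 + ‖a‖) ^ (n + 2) * (‖y‖ / R) ^ 2)
        = B / (1 + ‖a‖) ^ (n + 2) / R ^ 2 * (|φ y| * ((1 + ‖y‖) ^ (n + 2) * ‖y‖ ^ 2)) := by
          rw [div_pow]; ring
      _ ≤ B / (1 + ‖a‖) ^ (n + 2) / R ^ 2 * (|φ y| * ((1 + ‖y‖) ^ (n + 2) * (1 + ‖y‖) ^ 2)) := by
          gcongr
      _ = _ := by rw [← pow_add]
  refine (mul_le_mul_of_nonneg_left hb (by positivity)).trans_eq ?_
  have hRa : R + ‖x‖ = R * (1 + ‖a‖) := by
    simp only [a, norm_smul, norm_inv, Real.norm_of_nonneg hR0.le]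
    field_simp
  rw [hRa, mul_pow, pow_add R n 2]
  field_simp

/-- `A` annihilates smooth compact functions with vanishing moments of order 0 and 1. -/
lemma integral_mul_eq_zero_of_moments [Nontrivial (Spc n)] {A : Spc n → ℝ}
    (hA : AEStronglyMeasurable A volume) (hi : Integrable fun x => |A x| * wt x)
    (heq : ∀ h : Spc n → ℝ, ContDiff ℝ ((⊤ : ℕ∞) : WithTop ℕ∞) h → HasCompactSupport h →
      ∫ x, h x = 0 → ∫ x, A x * fracLap h x = 0)
    {φ : Spc n → ℝ} (hφd : ContDiff ℝ ((⊤ : ℕ∞) : WithTop ℕ∞) φ) (hφs : HasCompactSupport φ)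
    (h0 : ∫ y, φ y = 0) (h1 : ∫ y, φ y • y = 0) : ∫ x, A x * φ x = 0 := by
  have hn : finrank ℝ (Spc n) = n := finrank_euclideanSpace_fin
  let χb : ContDiffBump (0 : Spc n) := ⟨1, 2, one_pos, one_lt_two⟩
  set χ : Spc n → ℂ := fun ξ => ((χb ξ : ℝ) : ℂ) with hχ
  have hχd : ContDiff ℝ ((⊤ : ℕ∞) : WithTop ℕ∞) χ := Complex.ofRealCLM.contDiff.comp χb.contDiff
  have hχs : HasCompactSupport χ := χb.hasCompactSupport.comp_left Complex.ofReal_zero
  set ψS : 𝓢(Spc n, ℂ) := 𝓕⁻ (hχs.toSchwartzMap hχd) with hψS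
  set ψ : Spc n → ℂ := 𝓕⁻ χ with hψ
  have hψe : (ψS : Spc n → ℂ) = ψ := by
    rw [hψS, SchwartzMap.fourierInv_coe]
    rfl
  have hψ1 : ∫ z, ψ z = 1 := by
    have h : 𝓕 (ψS : Spc n → ℂ) 0 = χ 0 := by
      rw [← SchwartzMap.fourier_coe, hψS, FourierTransform.fourier_fourierInv_eq]
      rfl
    rw [Real.fourier_eq, hψe] at h
    simpa [hχ, χb.one_of_mem_closedBall (Metric.mem_closedBall_self zero_le_one)] using h
  set Φ : Spc n → ℂ := fun y => (φ y : ℂ) with hΦ
  set ΦS := (hφs.comp_left Complex.ofReal_zero : HasCompactSupport Φ).toSchwartzMap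
    (Complex.ofRealCLM.contDiff.comp hφd : ContDiff ℝ ((⊤ : ℕ∞) : WithTop ℕ∞) Φ) with hΦS
  have hFΦ : ContDiff ℝ ((⊤ : ℕ∞) : WithTop ℕ∞) (𝓕 Φ) := by
    have h := (𝓕 ΦS).smooth ⊤
    rwa [SchwartzMap.fourier_coe] at h
  set u : ℝ → Spc n → ℂ := fun R => smooth φ ψ R with hu
  obtain ⟨B2, -, hB2⟩ := exists_decay_bound ψS (n + 2) 2
  obtain ⟨B0, -, hB0⟩ := exists_decay_bound ψS (2 * n + 3) 0
  simp only [norm_iteratedFDeriv_zero, hψe] at hB0 hB2
  obtain ⟨Bφ, -, hBφ⟩ := exists_decay_bound (hφs.toSchwartzMap hφd) (n + 2) 0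
  simp only [norm_iteratedFDeriv_zero] at hBφ
  have hψc : Continuous ψ := hψe ▸ ψS.continuous
  have hψi2 : Integrable fun z : Spc n => (1 + ‖z‖) ^ (-((n + 1 : ℕ) : ℝ)) :=
    integrable_one_add_norm (by rw [hn]; push_cast; linarith)
  have hucont : ∀ R, 0 < R → Continuous (u R) := by
    intro R hR
    have e : u R = fun x => ∫ y, φ y • scaled ψ R (x - y) := rfl
    rw [e]
    have hψb : ∀ z, ‖ψ z‖ ≤ B0 := fun z => le_trans
      (le_mul_of_one_le_right (norm_nonneg _) (one_le_pow₀ (by linarith [norm_nonneg z]))) (hB0 z)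
    refine continuous_of_dominated (bound := fun y => |φ y| * ((R ^ n)⁻¹ * B0))
      (fun x => (hφd.continuous.smul (show Continuous fun y => scaled ψ R (x - y) by
        unfold scaled; fun_prop)).aestronglyMeasurable)
      (fun x => Eventually.of_forall fun y => ?_)
      ((hφd.continuous.abs.integrable_of_hasCompactSupport hφs.norm).mul_const _)
      (Eventually.of_forall fun y => by unfold scaled; fun_prop)
    rw [norm_smul, scaled, norm_smul, Real.norm_eq_abs, norm_inv, norm_pow,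
      Real.norm_of_nonneg hR.le]
    gcongr
    exact hψb _
  have hu2 : ∀ R, 0 < R → ∀ x, u R x = ∫ z, φ (x - R • z) • ψ z := by
    intro R hR x
    have key : ∫ v, φ (x - v) • scaled ψ R v = ∫ z, φ (x - R • z) • ψ z := by
      have h := Measure.integral_comp_smul_of_nonneg volume
        (fun v => φ (x - v) • scaled ψ R v) R (hR := hR.le)
      simp only [scaled, smul_smul, inv_mul_cancel₀ hR.ne', one_smul, hn] at h
      have h2 : ∫ z, (φ (x - R • z) * (R ^ n)⁻¹) • ψ z = (R ^ n)⁻¹ • ∫ z, φ (x - R • z) • ψ z := by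
        rw [← integral_smul]
        exact integral_congr_ae (Eventually.of_forall fun z => by simp; ring)
      rw [h2] at h
      simp only [scaled, smul_smul]
      exact (smul_right_injective ℂ (inv_ne_zero (pow_ne_zero n hR.ne')) h).symm
    rw [← key, ← integral_sub_left_eq_self (fun v => φ (x - v) • scaled ψ R v) volume x]
    simp only [hu, smooth, sub_sub_cancel]
  set CL := B2 * ∫ y, |φ y| * (1 + ‖y‖) ^ (n + 4)
  have hbig : ∀ R, 1 ≤ R → ∀ x, ‖u R x‖ ≤ CL * ((R + ‖x‖) ^ (n + 2))⁻¹ := fun R hR x =>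
    norm_smooth_le_wt hφd.continuous hφs h0 h1 (hψe ▸ ψS.smooth 2) hB2 hR x
  set CS := Bφ * B0 * ∫ z : Spc n, (1 + ‖z‖) ^ (-((n + 1 : ℕ) : ℝ))
  have hsmall : ∀ R, 0 < R → R ≤ 1 → ∀ x, ‖u R x‖ ≤ CS * wt x := fun R hR hR1 x => by
    rw [hu2 R hR x]
    exact norm_smooth_le_one hBφ hψi2 hB0 ⟨hR.le, hR1⟩ x
  have hCL : 0 ≤ CL := by
    have h := (norm_nonneg _).trans (hbig 1 le_rfl 0)
    simpa using h
  have huw : ∀ R, 0 < R → ∃ c, ∀ x, ‖u R x‖ ≤ c * wt x := by
    intro R hR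
    rcases le_total R 1 with h | h
    · exact ⟨CS, hsmall R hR h⟩
    · refine ⟨CL, fun x => (hbig R h x).trans ?_⟩
      rw [wt, hn]
      gcongr
  set I : ℝ → ℂ := fun R => ∫ x, A x • u R x
  have hconst : ∀ r R, 0 < r → 0 < R → I r = I R := by
    intro r R hr hR
    set G : Spc n → ℂ := fun ξ => χ (r • ξ) * 𝓕 Φ ξ - χ (R • ξ) * 𝓕 Φ ξ with hG
    have hscs : ∀ t : ℝ, 0 < t → HasCompactSupport fun ξ : Spc n => χ (t • ξ) * 𝓕 Φ ξ := fun t ht =>
      (hχs.comp_homeomorph (Homeomorph.smulOfNeZero t ht.ne')).mul_right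
    have hscd : ∀ t : ℝ, ContDiff ℝ ((⊤ : ℕ∞) : WithTop ℕ∞) fun ξ : Spc n => χ (t • ξ) * 𝓕 Φ ξ :=
      fun t => (hχd.comp (contDiff_const_smul t)).mul hFΦ
    have hG0 : G =ᶠ[𝓝 0] 0 := by
      have hone : ∀ t : ℝ, ∀ᶠ ξ in 𝓝 (0 : Spc n), χ (t • ξ) = 1 := fun t => by
        have h := (continuous_const_smul t).tendsto' (0 : Spc n) 0 (smul_zero t)
        filter_upwards [h.eventually (Metric.closedBall_mem_nhds 0 one_pos)] with ξ hξ
        simp [hχ, χb.one_of_mem_closedBall hξ]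
      filter_upwards [hone r, hone R] with ξ h1 h2
      simp [hG, h1, h2]
    have h := integral_fourierInv_eq_zero hA hi heq ((hscd r).sub (hscd R))
      ((hscs r hr).sub (hscs R hR)) hG0
    have hint : ∀ t : ℝ, 0 < t → Integrable fun ξ : Spc n => χ (t • ξ) * 𝓕 Φ ξ := fun t ht =>
      (hscd t).continuous.integrable_of_hasCompactSupport (hscs t ht)
    have hsub : ∀ x, 𝓕⁻ G x = u r x - u R x := by
      intro x
      rw [Real.fourierInv_eq]
      simp only [hG, Circle.smul_def, smul_sub]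
      have hb : ∀ t : ℝ, 0 < t → Integrable fun ξ : Spc n => (𝐞 ⟪ξ, x⟫ : ℂ) • (χ (t • ξ) * 𝓕 Φ ξ) :=
        fun t ht => by
        refine (hint t ht).bdd_mul ?_ (Eventually.of_forall fun ξ => (Circle.norm_coe _).le)
        exact (continuous_subtype_val.comp
          (Real.continuous_fourierChar.comp (by fun_prop))).aestronglyMeasurable
      rw [integral_sub (hb r hr) (hb R hR)]
      simp only [hu, ← fourierInv_cutoff hχd.continuous hχs hφd.continuous hφs hr x,
        ← fourierInv_cutoff hχd.continuous hχs hφd.continuous hφs hR x, hψ, Real.fourierInv_eq,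
        Circle.smul_def]
      rfl
    obtain ⟨c1, hc1⟩ := huw r hr
    obtain ⟨c2, hc2⟩ := huw R hR
    rw [show (fun ξ => χ (r • ξ) * 𝓕 Φ ξ - χ (R • ξ) * 𝓕 Φ ξ) = G from rfl] at *
    simp only [hsub, smul_sub] at h
    rwa [integral_sub (integrable_smul_of_le_wt hA hi (hucont r hr).aestronglyMeasurable hc1)
      (integrable_smul_of_le_wt hA hi (hucont R hR).aestronglyMeasurable hc2), sub_eq_zero] at h
  have hinf : Tendsto (fun k : ℕ => I ((k : ℝ) + 1)) atTop (𝓝 0) := by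
    have h := tendsto_integral_of_dominated_convergence (fun x => CL * (|A x| * wt x))
      (F := fun (k : ℕ) x => A x • u ((k : ℝ) + 1) x) (f := fun _ => (0 : ℂ))
      (fun k => hA.smul (hucont _ (by positivity)).aestronglyMeasurable) (hi.const_mul _)
      (fun k => Eventually.of_forall fun x => ?_) (Eventually.of_forall fun x => ?_)
    · simpa [I] using h
    · rw [norm_smul, Real.norm_eq_abs]
      have hk : (1 : ℝ) ≤ (k : ℝ) + 1 := le_add_of_nonneg_left (Nat.cast_nonneg k)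
      calc |A x| * ‖u ((k : ℝ) + 1) x‖ ≤ |A x| * (CL * (((k : ℝ) + 1 + ‖x‖) ^ (n + 2))⁻¹) :=
            mul_le_mul_of_nonneg_left (hbig _ hk x) (abs_nonneg _)
        _ ≤ |A x| * (CL * wt x) := by
            refine mul_le_mul_of_nonneg_left (mul_le_mul_of_nonneg_left ?_ hCL) (abs_nonneg _)
            rw [wt, hn]
            gcongr
        _ = _ := by ring
    · have h2 : Tendsto (fun k : ℕ => CL * (((k : ℝ) + 1 + ‖x‖) ^ (n + 2))⁻¹) atTop (𝓝 0) := by
        have h3 : Tendsto (fun k : ℕ => ((k : ℝ) + 1 + ‖x‖)) atTop atTop :=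
          tendsto_atTop_add_const_right _ _ (tendsto_atTop_add_const_right _ _ tendsto_natCast_atTop_atTop)
        simpa using (((tendsto_pow_atTop (by omega : n + 2 ≠ 0)).comp h3).inv_tendsto_atTop).const_mul CL
      have h4 := squeeze_zero_norm (fun k : ℕ => hbig ((k : ℝ) + 1)
        (le_add_of_nonneg_left (Nat.cast_nonneg k)) x) h2
      simpa using h4.const_smul (A x)
  have hzero : Tendsto (fun k : ℕ => I (1 / ((k : ℝ) + 1))) atTop (𝓝 (∫ x, A x • (φ x : ℂ))) := by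
    refine tendsto_integral_of_dominated_convergence (fun x => CS * (|A x| * wt x))
      (fun k => hA.smul (hucont _ (by positivity)).aestronglyMeasurable) (hi.const_mul _)
      (fun k => Eventually.of_forall fun x => ?_) (Eventually.of_forall fun x => ?_)
    · rw [norm_smul, Real.norm_eq_abs]
      calc _ ≤ |A x| * (CS * wt x) := mul_le_mul_of_nonneg_left (hsmall _ (by positivity)
            ((div_le_one (by positivity)).2 (le_add_of_nonneg_left (Nat.cast_nonneg k))) x)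
            (abs_nonneg _)
        _ = _ := by ring
    · refine Tendsto.const_smul ?_ _
      have hlim : Tendsto (fun k : ℕ => ∫ z, φ (x - (1 / ((k : ℝ) + 1)) • z) • ψ z) atTop
          (𝓝 (∫ z, φ x • ψ z)) := by
        obtain ⟨M, hM⟩ := hφd.continuous.bounded_above_of_compact_support hφs
        refine tendsto_integral_of_dominated_convergence (fun z => M * ‖ψ z‖)
          (fun k => ((hφd.continuous.comp (by fun_prop)).smul hψc).aestronglyMeasurable)
          ((hψe ▸ ψS.integrable : Integrable ψ).norm.const_mul _)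
          (fun k => Eventually.of_forall fun z => by
            rw [norm_smul]; exact mul_le_mul_of_nonneg_right (hM _) (norm_nonneg _))
          (Eventually.of_forall fun z => ?_)
        refine Tendsto.smul_const ((hφd.continuous.tendsto x).comp ?_) _
        have := ((tendsto_one_div_add_atTop_nhds_zero_nat (𝕜 := ℝ)).smul_const z).const_sub x
        simpa using this
      rw [integral_smul, hψ1, Complex.real_smul, mul_one] at hlim
      exact hlim.congr fun k => (hu2 _ (by positivity) x).symm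
  have hI1 : ∀ t, 0 < t → I t = 0 := fun t ht => by
    refine tendsto_nhds_unique ?_ hinf
    refine tendsto_const_nhds.congr fun k => hconst _ _ ht (by positivity)
  have hfin : ∫ x, A x • (φ x : ℂ) = 0 := by
    refine tendsto_nhds_unique hzero (tendsto_const_nhds.congr fun k => ?_)
    exact (hI1 _ (by positivity)).symm
  have e : (fun x => A x • (φ x : ℂ)) = fun x => ((A x * φ x : ℝ) : ℂ) := by
    funext x; simp [Complex.real_smul]
  rw [e, integral_complex_ofReal] at hfin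
  exact_mod_cast hfin

end Vale.Agent.P120.Liouville
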